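import Mathlib

/-!
Spectral inequality for thermal states on a finite-dimensional space.
-/

namespace Vale.Agent.P361

open Matrix NormedSpace

/-- The slope-type coefficient `coth y + y / sinh² y`. -/
noncomputable def coefA (y : ℝ) : ℝ := Real.cosh y / Real.sinh y + y / (Real.sinh y) ^ 2

/-- The coefficient `1 / sinh² y`. -/
noncomputable def coefB (y : ℝ) : ℝ := 1 / (Real.sinh y) ^ 2

theorem sinh_le_mul_cosh {s : ℝ} (hs : 0 ≤ s) : Real.sinh s ≤ s * Real.cosh s := by
  have hmono : MonotoneOn (fun s : ℝ => s * Real.cosh s - Real.sinh s) (Set.Ici 0) := by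
    apply monotoneOn_of_deriv_nonneg (convex_Ici 0)
    · fun_prop
    · intro x _
      exact (((hasDerivAt_id x).mul (Real.hasDerivAt_cosh x)).sub
        (Real.hasDerivAt_sinh x)).differentiableAt.differentiableWithinAt
    · intro x hx
      simp only [interior_Ici, Set.mem_Ioi] at hx
      have h1 : HasDerivAt (fun s : ℝ => s * Real.cosh s - Real.sinh s)
          (1 * Real.cosh x + x * Real.sinh x - Real.cosh x) x :=
        ((hasDerivAt_id x).mul (Real.hasDerivAt_cosh x)).sub (Real.hasDerivAt_sinh x)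
      rw [h1.deriv]
      have : 0 ≤ x * Real.sinh x := mul_nonneg hx.le (Real.sinh_nonneg_iff.2 hx.le)
      linarith
  have := hmono (Set.mem_Ici.2 le_rfl) (Set.mem_Ici.2 hs) hs
  simp at this
  linarith

/-- The tangent-line inequality for `coth`, in a form valid for all real `y`. -/
theorem cosh_ge (y y0 : ℝ) (hy0 : 0 < y0) :
    Real.sinh y * (coefA y0 - coefB y0 * y) ≤ Real.cosh y := by
  have hs0 : 0 < Real.sinh y0 := Real.sinh_pos_iff.2 hy0
  have hc0 : 0 < Real.cosh y0 := Real.cosh_pos y0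
  unfold coefA coefB
  rcases lt_or_ge 0 y with hy | hy
  · -- positive
    have hs : 0 < Real.sinh y := Real.sinh_pos_iff.2 hy
    have key : Real.sinh y * (y0 - y) ≤ Real.sinh y0 * Real.sinh (y0 - y) := by
      rcases le_total y y0 with h | h
      · have h1 : y0 - y ≤ Real.sinh (y0 - y) := Real.self_le_sinh_iff.2 (by linarith)
        have h2 : Real.sinh y ≤ Real.sinh y0 := Real.sinh_le_sinh.2 h
        have h3 : 0 ≤ y0 - y := by linarith
        exact mul_le_mul h2 h1 h3 hs0.le
      · obtain ⟨s, hs'⟩ : ∃ s, s = y - y0 := ⟨_, rfl⟩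
        have hs0' : 0 ≤ s := by linarith
        have e1 : y0 - y = -s := by linarith
        have e2 : y = y0 + s := by linarith
        rw [e1, Real.sinh_neg, e2, Real.sinh_add]
        have h1 := sinh_le_mul_cosh hs0'
        have h2 : 0 ≤ Real.sinh s := Real.sinh_nonneg_iff.2 hs0'
        have h3 : 0 ≤ Real.cosh y0 * Real.sinh s * s := by positivity
        nlinarith [mul_le_mul_of_nonneg_left h1 hs0.le]
    have h4 : Real.sinh (y0 - y) = Real.sinh y0 * Real.cosh y - Real.cosh y0 * Real.sinh y :=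
      Real.sinh_sub y0 y
    rw [h4] at key
    have h5 : Real.sinh y * (Real.cosh y0 / Real.sinh y0 + y0 / Real.sinh y0 ^ 2
        - 1 / Real.sinh y0 ^ 2 * y) = (Real.sinh y * Real.cosh y0 * Real.sinh y0
          + Real.sinh y * (y0 - y)) / Real.sinh y0 ^ 2 := by
      field_simp
      ring
    rw [h5, div_le_iff₀ (by positivity)]
    nlinarith
  · have h1 : Real.sinh y ≤ 0 := Real.sinh_nonpos_iff.2 hy
    have h2 : 0 ≤ Real.cosh y0 / Real.sinh y0 + y0 / Real.sinh y0 ^ 2
        - 1 / Real.sinh y0 ^ 2 * y := by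
      have : 0 ≤ 1 / Real.sinh y0 ^ 2 * (-y) := by
        apply mul_nonneg (by positivity) (by linarith)
      have h3 : 0 ≤ Real.cosh y0 / Real.sinh y0 := by positivity
      have h4 : 0 ≤ y0 / Real.sinh y0 ^ 2 := by positivity
      linarith
    have := mul_nonneg_of_nonpos_of_nonpos h1 (neg_nonpos.2 h2)
    have h5 := Real.cosh_pos y
    nlinarith

/-- Two-weight form: for `E F : ℝ`, with weights `exp (-E)`, `exp (-F)`. -/
theorem weight_ineq (E F y0 : ℝ) (hy0 : 0 < y0) :
    (Real.exp (-E) - Real.exp (-F)) * (coefA y0 - coefB y0 / 2 * (F - E)) ≤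
      Real.exp (-E) + Real.exp (-F) := by
  have h := cosh_ge ((F - E) / 2) y0 hy0
  have hc : Real.exp (-E) + Real.exp (-F)
      = 2 * Real.exp (-(E + F) / 2) * Real.cosh ((F - E) / 2) := by
    rw [Real.cosh_eq]
    have e1 : Real.exp (-E) = Real.exp (-(E + F) / 2) * Real.exp ((F - E) / 2) := by
      rw [← Real.exp_add]; ring_nf
    have e2 : Real.exp (-F) = Real.exp (-(E + F) / 2) * Real.exp (-((F - E) / 2)) := by
      rw [← Real.exp_add]; ring_nf
    rw [e1, e2]; ring
  have hs : Real.exp (-E) - Real.exp (-F)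
      = 2 * Real.exp (-(E + F) / 2) * Real.sinh ((F - E) / 2) := by
    rw [Real.sinh_eq]
    have e1 : Real.exp (-E) = Real.exp (-(E + F) / 2) * Real.exp ((F - E) / 2) := by
      rw [← Real.exp_add]; ring_nf
    have e2 : Real.exp (-F) = Real.exp (-(E + F) / 2) * Real.exp (-((F - E) / 2)) := by
      rw [← Real.exp_add]; ring_nf
    rw [e1, e2]; ring
  rw [hc, hs]
  have hpos : 0 < 2 * Real.exp (-(E + F) / 2) := by positivity
  have : 2 * Real.exp (-(E + F) / 2) * Real.sinh ((F - E) / 2) *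
      (coefA y0 - coefB y0 / 2 * (F - E)) = 2 * Real.exp (-(E + F) / 2) *
      (Real.sinh ((F - E) / 2) * (coefA y0 - coefB y0 * ((F - E) / 2))) := by ring
  rw [this]
  exact mul_le_mul_of_nonneg_left h hpos.le

variable {ι : Type*} [Fintype ι] [DecidableEq ι]

/-- Spectral decomposition of a Hermitian matrix together with its exponentials. -/
theorem exists_diag (K : Matrix ι ι ℂ) (hK : K.IsHermitian) :
    ∃ (U : Matrix ι ι ℂ) (E : ι → ℝ), U * Uᴴ = 1 ∧ Uᴴ * U = 1 ∧
      K = U * diagonal (fun i => (E i : ℂ)) * Uᴴ ∧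
      exp (-K) = U * diagonal (fun i => ((Real.exp (-E i) : ℝ) : ℂ)) * Uᴴ := by
  refine ⟨hK.eigenvectorUnitary, hK.eigenvalues, ?_, ?_, ?_, ?_⟩
  · have := (Unitary.mem_iff.1 hK.eigenvectorUnitary.2).2
    simpa [star_eq_conjTranspose] using this
  · have := (Unitary.mem_iff.1 hK.eigenvectorUnitary.2).1
    simpa [star_eq_conjTranspose] using this
  · have := hK.spectral_theorem
    rw [Unitary.conjStarAlgAut_apply] at this
    exact this
  · have hU1 : (hK.eigenvectorUnitary : Matrix ι ι ℂ) * (hK.eigenvectorUnitary : Matrix ι ι ℂ)ᴴ = 1 := by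
      have := (Unitary.mem_iff.1 hK.eigenvectorUnitary.2).2
      simpa [star_eq_conjTranspose] using this
    have hU2 : (hK.eigenvectorUnitary : Matrix ι ι ℂ)ᴴ * (hK.eigenvectorUnitary : Matrix ι ι ℂ) = 1 := by
      have := (Unitary.mem_iff.1 hK.eigenvectorUnitary.2).1
      simpa [star_eq_conjTranspose] using this
    have h1 : K = (hK.eigenvectorUnitary : Matrix ι ι ℂ) *
        diagonal (fun i => (hK.eigenvalues i : ℂ)) * (hK.eigenvectorUnitary : Matrix ι ι ℂ)ᴴ := by
      have := hK.spectral_theorem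
      rw [Unitary.conjStarAlgAut_apply] at this
      exact this
    set U : Matrix ι ι ℂ := (hK.eigenvectorUnitary : Matrix ι ι ℂ) with hU
    let u : (Matrix ι ι ℂ)ˣ := ⟨U, Uᴴ, hU1, hU2⟩
    have h2 : -K = (u : Matrix ι ι ℂ) * diagonal (fun i => ((-hK.eigenvalues i : ℝ) : ℂ)) * (↑u⁻¹ : Matrix ι ι ℂ) := by
      have e : diagonal (fun i => ((-hK.eigenvalues i : ℝ) : ℂ)) = - diagonal (fun i => (hK.eigenvalues i : ℂ)) := by
        rw [diagonal_neg]; congr 1; ext i; simp
      rw [e]
      show -K = U * -diagonal (fun i => (hK.eigenvalues i : ℂ)) * Uᴴ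
      rw [mul_neg, neg_mul, ← h1]
    rw [h2]
    have h3 := Matrix.exp_units_conj u (diagonal (fun i => ((-hK.eigenvalues i : ℝ) : ℂ)))
    rw [Matrix.exp_diagonal] at h3
    rw [h3]
    show U * diagonal (exp fun i => ((-hK.eigenvalues i : ℝ) : ℂ)) * Uᴴ = _
    congr 3
    ext i
    rw [Pi.coe_exp, ← Complex.exp_eq_exp_ℂ, Complex.ofReal_exp]


theorem trace_conj_diag (U : Matrix ι ι ℂ) (w : ι → ℂ) (X : Matrix ι ι ℂ) :
    trace (X * (U * diagonal w * Uᴴ)) = ∑ i, (Uᴴ * X * U) i i * w i := by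
  have : trace (X * (U * diagonal w * Uᴴ)) = trace ((Uᴴ * X * U) * diagonal w) := by
    rw [← Matrix.mul_assoc, ← Matrix.mul_assoc, trace_mul_comm]
    simp only [Matrix.mul_assoc]
  rw [this, trace]
  apply Finset.sum_congr rfl
  intro i _
  simp [Matrix.diag, mul_diagonal]

/-- The key inequality: a lower bound for the thermal expectation of the anticommutator in terms
of those of the commutator and the double commutator. -/
theorem core (K A : Matrix ι ι ℂ) (hK : K.IsHermitian) (y0 : ℝ) (hy0 : 0 < y0) :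
    coefA y0 * (trace ((A * Aᴴ - Aᴴ * A) * exp (-K))).re
      - coefB y0 / 2 * (trace (((A * K - K * A) * Aᴴ - Aᴴ * (A * K - K * A)) * exp (-K))).re ≤
    (trace ((A * Aᴴ + Aᴴ * A) * exp (-K))).re := by
  obtain ⟨U, E, hU1, hU2, hKd, hexp⟩ := exists_diag K hK
  set B : Matrix ι ι ℂ := Uᴴ * A * U with hB
  set D : Matrix ι ι ℂ := diagonal (fun i => (E i : ℂ)) with hD
  have hBs : Bᴴ = Uᴴ * Aᴴ * U := by
    rw [hB]; simp [conjTranspose_mul, Matrix.mul_assoc]
  have hmul : ∀ X Y : Matrix ι ι ℂ, Uᴴ * (X * Y) * U = (Uᴴ * X * U) * (Uᴴ * Y * U) := by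
    intro X Y
    calc Uᴴ * (X * Y) * U = Uᴴ * X * 1 * Y * U := by simp [Matrix.mul_assoc]
      _ = Uᴴ * X * (U * Uᴴ) * Y * U := by rw [hU1]
      _ = _ := by simp [Matrix.mul_assoc]
  have hsub : ∀ X Y : Matrix ι ι ℂ, Uᴴ * (X - Y) * U = (Uᴴ * X * U) - (Uᴴ * Y * U) := by
    intro X Y; simp [Matrix.mul_sub, Matrix.sub_mul]
  have hadd : ∀ X Y : Matrix ι ι ℂ, Uᴴ * (X + Y) * U = (Uᴴ * X * U) + (Uᴴ * Y * U) := by
    intro X Y; simp [Matrix.mul_add, Matrix.add_mul]
  have hKU : Uᴴ * K * U = D := by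
    rw [hKd]
    calc Uᴴ * (U * D * Uᴴ) * U = (Uᴴ * U) * D * (Uᴴ * U) := by simp [Matrix.mul_assoc]
      _ = D := by rw [hU2]; simp
  have e1 : ∀ i, (B * Bᴴ) i i = ((∑ j, Complex.normSq (B i j) : ℝ) : ℂ) := by
    intro i
    rw [Matrix.mul_apply]
    push_cast
    apply Finset.sum_congr rfl
    intro j _
    rw [conjTranspose_apply, ← Complex.mul_conj]; rfl
  have e2 : ∀ i, (Bᴴ * B) i i = ((∑ j, Complex.normSq (B j i) : ℝ) : ℂ) := by
    intro i
    rw [Matrix.mul_apply]
    push_cast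
    apply Finset.sum_congr rfl
    intro j _
    rw [conjTranspose_apply, Complex.normSq_eq_conj_mul_self]; rfl
  have e3 : ∀ i, ((B * D - D * B) * Bᴴ) i i
      = ((∑ j, (E j - E i) * Complex.normSq (B i j) : ℝ) : ℂ) := by
    intro i
    rw [Matrix.mul_apply]
    push_cast
    apply Finset.sum_congr rfl
    intro j _
    rw [conjTranspose_apply, ← Complex.mul_conj, Matrix.sub_apply, hD, mul_diagonal, diagonal_mul]
    simp only [Complex.star_def]
    ring
  have e4 : ∀ i, (Bᴴ * (B * D - D * B)) i i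
      = ((∑ j, (E i - E j) * Complex.normSq (B j i) : ℝ) : ℂ) := by
    intro i
    rw [Matrix.mul_apply]
    push_cast
    apply Finset.sum_congr rfl
    intro j _
    rw [conjTranspose_apply, ← Complex.mul_conj, Matrix.sub_apply, hD, mul_diagonal, diagonal_mul]
    simp only [Complex.star_def]
    ring
  rw [hexp, trace_conj_diag, trace_conj_diag, trace_conj_diag]
  have f1 : (∑ i, (Uᴴ * (A * Aᴴ - Aᴴ * A) * U) i i * ((Real.exp (-E i) : ℝ) : ℂ)).re
      = ∑ i, ∑ j, (Real.exp (-E i) - Real.exp (-E j)) * Complex.normSq (B i j) := by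
    rw [hsub, hmul, hmul, ← hB, ← hBs]
    have : ∀ i, (B * Bᴴ - Bᴴ * B) i i * ((Real.exp (-E i) : ℝ) : ℂ)
        = ((((∑ j, Complex.normSq (B i j)) - (∑ j, Complex.normSq (B j i))) * Real.exp (-E i) : ℝ) : ℂ) := by
      intro i
      rw [Matrix.sub_apply, e1, e2]; push_cast; ring
    rw [Finset.sum_congr rfl (fun i _ => this i), ← Complex.ofReal_sum, Complex.ofReal_re]
    have g : ∀ i, ((∑ j, Complex.normSq (B i j)) - (∑ j, Complex.normSq (B j i))) * Real.exp (-E i)
       = (∑ j, Real.exp (-E i) * Complex.normSq (B i j))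
          - ∑ j, Real.exp (-E i) * Complex.normSq (B j i) := by
      intro i; rw [sub_mul, Finset.sum_mul, Finset.sum_mul]
      simp only [mul_comm]
    rw [Finset.sum_congr rfl (fun i _ => g i), Finset.sum_sub_distrib]
    rw [Finset.sum_comm (f := fun i j => Real.exp (-E i) * Complex.normSq (B j i))]
    rw [← Finset.sum_sub_distrib]
    apply Finset.sum_congr rfl
    intro i _
    rw [← Finset.sum_sub_distrib]
    apply Finset.sum_congr rfl
    intro j _
    ring
  have f2 : (∑ i, (Uᴴ * (A * Aᴴ + Aᴴ * A) * U) i i * ((Real.exp (-E i) : ℝ) : ℂ)).re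
      = ∑ i, ∑ j, (Real.exp (-E i) + Real.exp (-E j)) * Complex.normSq (B i j) := by
    rw [hadd, hmul, hmul, ← hB, ← hBs]
    have : ∀ i, (B * Bᴴ + Bᴴ * B) i i * ((Real.exp (-E i) : ℝ) : ℂ)
        = ((((∑ j, Complex.normSq (B i j)) + (∑ j, Complex.normSq (B j i))) * Real.exp (-E i) : ℝ) : ℂ) := by
      intro i
      rw [Matrix.add_apply, e1, e2]; push_cast; ring
    rw [Finset.sum_congr rfl (fun i _ => this i), ← Complex.ofReal_sum, Complex.ofReal_re]
    have g : ∀ i, ((∑ j, Complex.normSq (B i j)) + (∑ j, Complex.normSq (B j i))) * Real.exp (-E i)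
       = (∑ j, Real.exp (-E i) * Complex.normSq (B i j))
          + ∑ j, Real.exp (-E i) * Complex.normSq (B j i) := by
      intro i; rw [add_mul, Finset.sum_mul, Finset.sum_mul]
      simp only [mul_comm]
    rw [Finset.sum_congr rfl (fun i _ => g i), Finset.sum_add_distrib]
    rw [Finset.sum_comm (f := fun i j => Real.exp (-E i) * Complex.normSq (B j i))]
    rw [← Finset.sum_add_distrib]
    apply Finset.sum_congr rfl
    intro i _
    rw [← Finset.sum_add_distrib]
    apply Finset.sum_congr rfl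
    intro j _
    ring
  have f3 : (∑ i, (Uᴴ * ((A * K - K * A) * Aᴴ - Aᴴ * (A * K - K * A)) * U) i i *
        ((Real.exp (-E i) : ℝ) : ℂ)).re
      = ∑ i, ∑ j, (Real.exp (-E i) - Real.exp (-E j)) * (E j - E i) * Complex.normSq (B i j) := by
    have hc : Uᴴ * ((A * K - K * A) * Aᴴ - Aᴴ * (A * K - K * A)) * U
        = (B * D - D * B) * Bᴴ - Bᴴ * (B * D - D * B) := by
      rw [hsub, hmul, hmul, hsub, hmul, hmul, ← hB, ← hBs, hKU]
    rw [hc]
    have : ∀ i, ((B * D - D * B) * Bᴴ - Bᴴ * (B * D - D * B)) i i * ((Real.exp (-E i) : ℝ) : ℂ)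
        = ((((∑ j, (E j - E i) * Complex.normSq (B i j))
          - (∑ j, (E i - E j) * Complex.normSq (B j i))) * Real.exp (-E i) : ℝ) : ℂ) := by
      intro i
      rw [Matrix.sub_apply, e3, e4]; push_cast; ring
    rw [Finset.sum_congr rfl (fun i _ => this i), ← Complex.ofReal_sum, Complex.ofReal_re]
    have g : ∀ i, ((∑ j, (E j - E i) * Complex.normSq (B i j))
          - (∑ j, (E i - E j) * Complex.normSq (B j i))) * Real.exp (-E i)
       = (∑ j, Real.exp (-E i) * ((E j - E i) * Complex.normSq (B i j)))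
          - ∑ j, Real.exp (-E i) * ((E i - E j) * Complex.normSq (B j i)) := by
      intro i; rw [sub_mul, Finset.sum_mul, Finset.sum_mul]
      congr 1 <;> exact Finset.sum_congr rfl (fun j _ => mul_comm _ _)
    rw [Finset.sum_congr rfl (fun i _ => g i), Finset.sum_sub_distrib]
    rw [Finset.sum_comm (f := fun i j => Real.exp (-E i) * ((E i - E j) * Complex.normSq (B j i)))]
    rw [← Finset.sum_sub_distrib]
    apply Finset.sum_congr rfl
    intro i _
    rw [← Finset.sum_sub_distrib]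
    apply Finset.sum_congr rfl
    intro j _
    ring
  rw [f1, f2, f3, Finset.mul_sum, Finset.mul_sum, ← Finset.sum_sub_distrib]
  apply Finset.sum_le_sum
  intro i _
  rw [Finset.mul_sum, Finset.mul_sum, ← Finset.sum_sub_distrib]
  apply Finset.sum_le_sum
  intro j _
  have h := weight_ineq (E i) (E j) y0 hy0
  have hn : 0 ≤ Complex.normSq (B i j) := Complex.normSq_nonneg _
  calc _ = ((Real.exp (-E i) - Real.exp (-E j)) * (coefA y0 - coefB y0 / 2 * (E j - E i)))
      * Complex.normSq (B i j) := by ring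
    _ ≤ _ := mul_le_mul_of_nonneg_right h hn

end Vale.Agent.P361
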