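import Mathlib

/-!
Definitions for the quantum Heisenberg ferromagnet of spin `S = n/2` on the boxes
`Λ_N = {-N, …, N}³` with free boundary conditions.
-/

namespace Vale.Agent.P361

open Matrix

/-- The sites of the box `Λ_N = {-N, …, N}³`. -/
abbrev Site (N : ℕ) : Type := Fin 3 → ↥(Finset.Icc (-(N : ℤ)) (N : ℤ))

/-- The operator on the many-site space `⨂_x ℂ^(n+1)`, in the product basis indexed by
configurations `σ : V → Fin (n+1)`, that acts by the matrix `A` at the site `x` and trivially at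
all other sites. -/
def siteOp {V : Type*} [Fintype V] [DecidableEq V] {n : ℕ} (x : V)
    (A : Matrix (Fin (n + 1)) (Fin (n + 1)) ℂ) :
    Matrix (V → Fin (n + 1)) (V → Fin (n + 1)) ℂ :=
  Matrix.of fun σ τ => if ∀ y, y ≠ x → σ y = τ y then A (σ x) (τ x) else 0

/-- The raising matrix `S⁺ = S¹ + i S²` for spin `S = n/2`; the basis vector with index `a` has
weight `S - a`, and `S⁺` maps the vector `b` to `√(b (n + 1 - b))` times the vector `b - 1`. -/
noncomputable def Sp (n : ℕ) : Matrix (Fin (n + 1)) (Fin (n + 1)) ℂ :=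
  Matrix.of fun a b =>
    if (a : ℕ) + 1 = (b : ℕ) then ((Real.sqrt ((b : ℝ) * ((n : ℝ) + 1 - (b : ℝ))) : ℝ) : ℂ) else 0

/-- The matrix `S¹` for spin `S = n/2`. -/
noncomputable def S1 (n : ℕ) : Matrix (Fin (n + 1)) (Fin (n + 1)) ℂ :=
  (1 / 2 : ℂ) • (Sp n + (Sp n)ᴴ)

/-- The matrix `S²` for spin `S = n/2`. -/
noncomputable def S2 (n : ℕ) : Matrix (Fin (n + 1)) (Fin (n + 1)) ℂ :=
  (-Complex.I / 2) • (Sp n - (Sp n)ᴴ)

/-- The matrix `S³` for spin `S = n/2`. -/
noncomputable def S3 (n : ℕ) : Matrix (Fin (n + 1)) (Fin (n + 1)) ℂ :=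
  Matrix.diagonal fun a : Fin (n + 1) => (((n : ℝ) / 2 - (a : ℝ) : ℝ) : ℂ)

/-- The Hamiltonian `H_N = - ∑_{{x,y} ⊂ Λ_N, |x-y|₁ = 1} S_x · S_y`. The sum below runs over ordered
pairs, so that every nearest-neighbour edge occurs twice, whence the factor `1/2`. -/
noncomputable def hamiltonian (n N : ℕ) :
    Matrix (Site N → Fin (n + 1)) (Site N → Fin (n + 1)) ℂ :=
  -((1 / 2 : ℂ) • ∑ x : Site N, ∑ y : Site N,
    if ∑ i, |(x i : ℤ) - (y i : ℤ)| = 1 then
      siteOp x (S1 n) * siteOp y (S1 n) + siteOp x (S2 n) * siteOp y (S2 n)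
        + siteOp x (S3 n) * siteOp y (S3 n)
    else 0)

/-- The total magnetization `M_N = ∑_{x ∈ Λ_N} S³_x`. -/
noncomputable def totalS3 (n N : ℕ) :
    Matrix (Site N → Fin (n + 1)) (Site N → Fin (n + 1)) ℂ :=
  ∑ x : Site N, siteOp x (S3 n)

/-- The finite-volume pressure `(β |Λ_N|)⁻¹ log Tr exp (-β (H_N - h M_N))`. -/
noncomputable def finitePressure (n N : ℕ) (β h : ℝ) : ℝ :=
  Real.log (Matrix.trace (NormedSpace.exp
    (-((β : ℂ) • (hamiltonian n N - (h : ℂ) • totalS3 n N))))).re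
    / (β * (Fintype.card (Site N) : ℝ))

/-- The pressure `p_β(h) = lim_{N → ∞} (β |Λ_N|)⁻¹ log Tr exp (-β (H_N - h M_N))`. -/
noncomputable def pressure (n : ℕ) (β h : ℝ) : ℝ :=
  Filter.limUnder Filter.atTop (fun N : ℕ => finitePressure n N β h)

/-- The spontaneous magnetization `m_S(β)`, `S = n/2`: the right derivative of `p_β` at `0`. -/
noncomputable def spontaneousMagnetization (n : ℕ) (β : ℝ) : ℝ :=
  derivWithin (pressure n β) (Set.Ioi 0) 0

/-- The one-magnon dispersion `ε_S(k) = 2 S ∑_j (1 - cos k_j)`, `S = n/2`. -/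
noncomputable def dispersion (n : ℕ) (k : Fin 3 → ℝ) : ℝ :=
  2 * ((n : ℝ) / 2) * ∑ j, (1 - Real.cos (k j))

end Vale.Agent.P361
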