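import Mathlib
import Vale.Agent.P361.Defs

/-!
Spin matrices and site operators.
-/

namespace Vale.Agent.P361

open Matrix

/-- The lowering matrix for spin `n/2`. -/
noncomputable def Sm (n : ℕ) : Matrix (Fin (n + 1)) (Fin (n + 1)) ℂ := (Sp n)ᴴ

section single

variable (n : ℕ)

theorem Sm_apply (a b : Fin (n + 1)) : Sm n a b =
    if (b : ℕ) + 1 = (a : ℕ) then ((Real.sqrt ((a : ℝ) * ((n : ℝ) + 1 - (a : ℝ))) : ℝ) : ℂ)
      else 0 := by
  unfold Sm Sp
  rw [conjTranspose_apply, Matrix.of_apply]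
  split_ifs
  · simp
  · simp

theorem S3_conjTranspose : (S3 n)ᴴ = S3 n := by
  unfold S3
  rw [diagonal_conjTranspose]
  congr 1
  ext i
  simp

theorem S3_mul_Sp : S3 n * Sp n - Sp n * S3 n = Sp n := by
  ext a b
  unfold S3 Sp
  rw [Matrix.sub_apply, diagonal_mul, mul_diagonal, Matrix.of_apply]
  split_ifs with h
  · have : (b : ℝ) = (a : ℝ) + 1 := by exact_mod_cast h.symm
    rw [this]
    push_cast
    ring
  · simp

theorem Sp_mul_Sm : Sp n * Sm n =
    diagonal (fun a : Fin (n + 1) => ((((a : ℝ) + 1) * ((n : ℝ) - a) : ℝ) : ℂ)) := by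
  ext a b
  rw [Matrix.mul_apply]
  have hterm : ∀ c : Fin (n + 1), Sp n a c * Sm n c b =
      if (a : ℕ) + 1 = (c : ℕ) ∧ a = b then (((c : ℝ) * ((n : ℝ) + 1 - (c : ℝ)) : ℝ) : ℂ) else 0 := by
    intro c
    rw [Sm_apply]
    unfold Sp
    rw [Matrix.of_apply]
    by_cases h1 : (a : ℕ) + 1 = (c : ℕ)
    · by_cases h2 : a = b
      · subst h2
        rw [if_pos h1, if_pos ⟨h1, rfl⟩, ← Complex.ofReal_mul, Real.mul_self_sqrt]
        have : (c : ℝ) ≤ n := by
          have := c.2
          have : (c : ℕ) ≤ n := by omega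
          exact_mod_cast this
        apply mul_nonneg
        · positivity
        · linarith
      · have h3 : ¬ ((b : ℕ) + 1 = (c : ℕ)) := by
          intro h; apply h2; ext; omega
        simp [h2, h3]
    · simp [h1]
  rw [Finset.sum_congr rfl (fun c _ => hterm c)]
  by_cases hab : a = b
  · subst hab
    rw [diagonal_apply_eq]
    by_cases ha : (a : ℕ) < n
    · rw [Finset.sum_eq_single (⟨(a : ℕ) + 1, by omega⟩ : Fin (n + 1))]
      · rw [if_pos ⟨rfl, rfl⟩]
        push_cast
        ring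
      · intro c _ hc
        rw [if_neg]
        intro h
        apply hc
        ext
        exact h.1.symm
      · simp
    · have ha' : (a : ℕ) = n := by have := a.2; omega
      rw [Finset.sum_eq_zero]
      · have : ((a : ℕ) : ℝ) = n := by exact_mod_cast ha'
        rw [this]; simp
      · intro c _
        rw [if_neg]
        intro h
        have := c.2
        omega
  · rw [diagonal_apply_ne _ hab, Finset.sum_eq_zero]
    intro c _
    rw [if_neg (fun h => hab h.2)]

theorem Sm_mul_Sp : Sm n * Sp n =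
    diagonal (fun a : Fin (n + 1) => (((a : ℝ) * ((n : ℝ) + 1 - a) : ℝ) : ℂ)) := by
  ext a b
  rw [Matrix.mul_apply]
  have hterm : ∀ c : Fin (n + 1), Sm n a c * Sp n c b =
      if (c : ℕ) + 1 = (a : ℕ) ∧ a = b then (((a : ℝ) * ((n : ℝ) + 1 - (a : ℝ)) : ℝ) : ℂ) else 0 := by
    intro c
    rw [Sm_apply]
    unfold Sp
    rw [Matrix.of_apply]
    by_cases h1 : (c : ℕ) + 1 = (a : ℕ)
    · by_cases h2 : a = b
      · subst h2
        rw [if_pos h1, if_pos ⟨h1, rfl⟩, ← Complex.ofReal_mul, Real.mul_self_sqrt]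
        have : (a : ℝ) ≤ n := by
          have := a.2
          have : (a : ℕ) ≤ n := by omega
          exact_mod_cast this
        apply mul_nonneg
        · positivity
        · linarith
      · have h3 : ¬ ((c : ℕ) + 1 = (b : ℕ)) := by
          intro h; apply h2; ext; omega
        simp [h2, h3]
    · simp [h1]
  rw [Finset.sum_congr rfl (fun c _ => hterm c)]
  by_cases hab : a = b
  · subst hab
    rw [diagonal_apply_eq]
    by_cases ha : 0 < (a : ℕ)
    · rw [Finset.sum_eq_single (⟨(a : ℕ) - 1, by omega⟩ : Fin (n + 1))]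
      · rw [if_pos ⟨by simp; omega, rfl⟩]
      · intro c _ hc
        rw [if_neg]
        intro h
        apply hc
        ext
        simp
        omega
      · simp
    · have ha' : (a : ℕ) = 0 := by omega
      rw [Finset.sum_eq_zero]
      · rw [ha']; simp
      · intro c _
        rw [if_neg]
        intro h
        omega
  · rw [diagonal_apply_ne _ hab, Finset.sum_eq_zero]
    intro c _
    rw [if_neg (fun h => hab h.2)]

theorem comm_Sp_Sm : Sp n * Sm n - Sm n * Sp n = (2 : ℂ) • S3 n := by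
  rw [Sp_mul_Sm, Sm_mul_Sp, diagonal_sub]
  unfold S3
  rw [← diagonal_smul]
  congr 1
  ext a
  simp only [Pi.smul_apply, smul_eq_mul]
  push_cast
  ring

theorem comm_S3_Sm : S3 n * Sm n - Sm n * S3 n = - Sm n := by
  have h := congrArg conjTranspose (S3_mul_Sp n)
  rw [conjTranspose_sub, conjTranspose_mul, conjTranspose_mul, S3_conjTranspose] at h
  unfold Sm
  rw [← neg_sub, h]

theorem anticomm_Sp_Sm : Sp n * Sm n + Sm n * Sp n =
    (2 : ℂ) • ((((n : ℂ) / 2) * ((n : ℂ) / 2 + 1)) • 1 - S3 n * S3 n) := by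
  rw [Sp_mul_Sm, Sm_mul_Sp, diagonal_add]
  unfold S3
  rw [diagonal_mul_diagonal, ← diagonal_one, ← diagonal_smul, diagonal_sub, ← diagonal_smul]
  congr 1
  ext a
  simp only [Pi.smul_apply, smul_eq_mul]
  push_cast
  ring

end single

section site

variable {V : Type*} [Fintype V] [DecidableEq V] {n : ℕ}

theorem siteOp_mulVec (x : V) (A : Matrix (Fin (n + 1)) (Fin (n + 1)) ℂ)
    (φ : (V → Fin (n + 1)) → ℂ) (σ : V → Fin (n + 1)) :
    (siteOp x A *ᵥ φ) σ = ∑ s, A (σ x) s * φ (Function.update σ x s) := by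
  unfold siteOp mulVec dotProduct
  symm
  apply Fintype.sum_of_injective (fun s => Function.update σ x s)
  · exact Function.update_injective σ x
  · intro τ hτ
    show (if ∀ y, y ≠ x → σ y = τ y then A (σ x) (τ x) else 0) * φ τ = 0
    rw [if_neg, zero_mul]
    intro h
    apply hτ
    refine ⟨τ x, ?_⟩
    ext y
    by_cases hy : y = x
    · subst hy; simp
    · simp [Function.update_of_ne hy, h y hy]
  · intro s
    show _ = (if ∀ y, y ≠ x → σ y = (Function.update σ x s) y then
      A (σ x) ((Function.update σ x s) x) else 0) * φ (Function.update σ x s)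
    rw [if_pos]
    · simp
    · intro y hy
      simp [Function.update_of_ne hy]

theorem siteOp_mul (x : V) (A B : Matrix (Fin (n + 1)) (Fin (n + 1)) ℂ) :
    siteOp x A * siteOp x B = siteOp x (A * B) := by
  apply Matrix.mulVec_injective
  ext φ σ
  rw [← mulVec_mulVec, siteOp_mulVec, siteOp_mulVec]
  simp only [siteOp_mulVec, Function.update_self, Function.update_idem, Matrix.mul_apply,
    Finset.mul_sum, Finset.sum_mul]
  rw [Finset.sum_comm]
  simp only [mul_assoc]

theorem siteOp_comm {x y : V} (hxy : x ≠ y) (A B : Matrix (Fin (n + 1)) (Fin (n + 1)) ℂ) :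
    siteOp x A * siteOp y B = siteOp y B * siteOp x A := by
  apply Matrix.mulVec_injective
  ext φ σ
  rw [← mulVec_mulVec, ← mulVec_mulVec, siteOp_mulVec, siteOp_mulVec]
  simp only [siteOp_mulVec, Finset.mul_sum]
  rw [Finset.sum_comm]
  apply Finset.sum_congr rfl
  intro s _
  apply Finset.sum_congr rfl
  intro r _
  rw [Function.update_of_ne hxy.symm, Function.update_of_ne hxy, Function.update_comm hxy]
  ring

theorem siteOp_one (x : V) : siteOp x (1 : Matrix (Fin (n + 1)) (Fin (n + 1)) ℂ) = 1 := by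
  apply Matrix.mulVec_injective
  ext φ σ
  rw [siteOp_mulVec, one_mulVec]
  rw [Finset.sum_eq_single (σ x)]
  · simp
  · intro s _ hs
    rw [Matrix.one_apply_ne hs.symm, zero_mul]
  · simp

/-- The site operator as an algebra homomorphism. -/
def siteHom (x : V) : Matrix (Fin (n + 1)) (Fin (n + 1)) ℂ →ₐ[ℂ]
    Matrix (V → Fin (n + 1)) (V → Fin (n + 1)) ℂ :=
  AlgHom.ofLinearMap
    { toFun := siteOp x
      map_add' := by
        intro A B
        ext σ τ
        simp only [siteOp, Matrix.of_apply, Matrix.add_apply]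
        split_ifs <;> simp
      map_smul' := by
        intro c A
        ext σ τ
        simp only [siteOp, Matrix.of_apply, Matrix.smul_apply, RingHom.id_apply]
        split_ifs <;> simp }
    (siteOp_one x) (fun A B => (siteOp_mul x A B).symm)

theorem siteHom_apply (x : V) (A : Matrix (Fin (n + 1)) (Fin (n + 1)) ℂ) :
    siteHom x A = siteOp x A := rfl

theorem siteOp_add (x : V) (A B : Matrix (Fin (n + 1)) (Fin (n + 1)) ℂ) :
    siteOp x (A + B) = siteOp x A + siteOp x B := map_add (siteHom x) A B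

theorem siteOp_sub (x : V) (A B : Matrix (Fin (n + 1)) (Fin (n + 1)) ℂ) :
    siteOp x (A - B) = siteOp x A - siteOp x B := map_sub (siteHom x) A B

theorem siteOp_neg (x : V) (A : Matrix (Fin (n + 1)) (Fin (n + 1)) ℂ) :
    siteOp x (-A) = -siteOp x A := map_neg (siteHom x) A

theorem siteOp_smul (x : V) (c : ℂ) (A : Matrix (Fin (n + 1)) (Fin (n + 1)) ℂ) :
    siteOp x (c • A) = c • siteOp x A := map_smul (siteHom x) c A

theorem siteOp_sum {κ : Type*} (s : Finset κ) (x : V)
    (A : κ → Matrix (Fin (n + 1)) (Fin (n + 1)) ℂ) :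
    siteOp x (∑ k ∈ s, A k) = ∑ k ∈ s, siteOp x (A k) := map_sum (siteHom x) A s

theorem siteOp_conjTranspose (x : V) (A : Matrix (Fin (n + 1)) (Fin (n + 1)) ℂ) :
    (siteOp x A)ᴴ = siteOp x Aᴴ := by
  ext σ τ
  simp only [siteOp, conjTranspose_apply, Matrix.of_apply]
  by_cases h : ∀ y, y ≠ x → σ y = τ y
  · rw [if_pos h, if_pos (fun y hy => (h y hy).symm)]
  · rw [if_neg h, if_neg (fun h' => h (fun y hy => (h' y hy).symm))]
    simp

theorem siteOp_diagonal (x : V) (d : Fin (n + 1) → ℂ) :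
    siteOp x (diagonal d) = diagonal (fun σ : V → Fin (n + 1) => d (σ x)) := by
  ext σ τ
  simp only [siteOp, Matrix.of_apply, diagonal_apply]
  by_cases h : σ = τ
  · subst h; simp
  · rw [if_neg h]
    split_ifs with h1 h2
    · exfalso
      apply h
      ext y
      by_cases hy : y = x
      · subst hy; rw [h2]
      · rw [h1 y hy]
    · rfl
    · rfl

end site

section pair

variable {V : Type*} [Fintype V] [DecidableEq V] {n : ℕ}

/-- Exchange operator `S_x · S_y` for `x ≠ y`, written with raising and lowering matrices. -/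
noncomputable def Qxy (n : ℕ) (x y : V) : Matrix (V → Fin (n + 1)) (V → Fin (n + 1)) ℂ :=
  (1 / 2 : ℂ) • (siteOp x (Sp n) * siteOp y (Sm n) + siteOp x (Sm n) * siteOp y (Sp n))
    + siteOp x (S3 n) * siteOp y (S3 n)

theorem site_Sp_Sm (x : V) : siteOp x (Sp n) * siteOp x (Sm n)
    = siteOp x (Sm n) * siteOp x (Sp n) + (2 : ℂ) • siteOp x (S3 n) := by
  rw [siteOp_mul, siteOp_mul, ← siteOp_smul, ← siteOp_add, ← comm_Sp_Sm]
  congr 1
  abel

theorem site_S3_Sp (x : V) : siteOp x (S3 n) * siteOp x (Sp n)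
    = siteOp x (Sp n) * siteOp x (S3 n) + siteOp x (Sp n) := by
  rw [siteOp_mul, siteOp_mul, ← siteOp_add]
  congr 1
  have := S3_mul_Sp n
  rw [sub_eq_iff_eq_add] at this
  rw [this]; abel

theorem site_S3_Sm (x : V) : siteOp x (S3 n) * siteOp x (Sm n)
    = siteOp x (Sm n) * siteOp x (S3 n) - siteOp x (Sm n) := by
  rw [siteOp_mul, siteOp_mul, ← siteOp_sub]
  congr 1
  have := comm_S3_Sm n
  rw [sub_eq_iff_eq_add] at this
  rw [this]; abel

/-- The bond current `S³_x S⁺_y - S⁺_x S³_y`. -/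
noncomputable def Rxy (n : ℕ) (x y : V) : Matrix (V → Fin (n + 1)) (V → Fin (n + 1)) ℂ :=
  siteOp x (S3 n) * siteOp y (Sp n) - siteOp x (Sp n) * siteOp y (S3 n)

theorem comm_Sp_Q {x y : V} (hxy : x ≠ y) :
    siteOp x (Sp n) * Qxy n x y - Qxy n x y * siteOp x (Sp n) = Rxy n x y := by
  unfold Qxy Rxy
  have h1 := site_Sp_Sm (n := n) x
  have h2 := site_S3_Sp (n := n) x
  have c1 := siteOp_comm hxy (Sp n) (Sp n)
  have c2 := siteOp_comm hxy (Sp n) (Sm n)
  have c3 := siteOp_comm hxy (Sp n) (S3 n)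
  set P := siteOp x (Sp n) with hP
  set M := siteOp x (Sm n) with hM
  set Z := siteOp x (S3 n) with hZ
  set P' := siteOp y (Sp n) with hP'
  set M' := siteOp y (Sm n) with hM'
  set Z' := siteOp y (S3 n) with hZ'
  have e1 : P * ((1 / 2 : ℂ) • (P * M' + M * P') + Z * Z')
      = (1 / 2 : ℂ) • (P * P * M' + P * M * P') + P * Z * Z' := by
    simp only [mul_add, mul_smul_comm, mul_assoc]
  have e2 : ((1 / 2 : ℂ) • (P * M' + M * P') + Z * Z') * P
      = (1 / 2 : ℂ) • (P * P * M' + M * P * P') + Z * P * Z' := by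
    simp only [add_mul, smul_mul_assoc, mul_assoc]
    rw [← c1, ← c2, ← c3]
  rw [e1, e2, h1, h2]
  simp only [add_mul, smul_mul_assoc, smul_add, smul_smul]
  norm_num
  abel

theorem Qxy_comm {x y : V} (hxy : x ≠ y) : Qxy n x y = Qxy n y x := by
  unfold Qxy
  rw [siteOp_comm hxy (Sp n) (Sm n), siteOp_comm hxy (Sm n) (Sp n),
    siteOp_comm hxy (S3 n) (S3 n), add_comm (siteOp y (Sm n) * siteOp x (Sp n))]

theorem Rxy_comm {x y : V} (hxy : x ≠ y) : Rxy n y x = - Rxy n x y := by
  unfold Rxy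
  rw [siteOp_comm hxy (S3 n) (Sp n), siteOp_comm hxy (Sp n) (S3 n)]
  abel

theorem comm_Sp_Q' {x y : V} (hxy : x ≠ y) :
    siteOp y (Sp n) * Qxy n x y - Qxy n x y * siteOp y (Sp n) = - Rxy n x y := by
  rw [Qxy_comm hxy, comm_Sp_Q hxy.symm, Rxy_comm hxy]

theorem comm_Sp_Q_other {x y z : V} (hx : z ≠ x) (hy : z ≠ y)
    (A : Matrix (Fin (n + 1)) (Fin (n + 1)) ℂ) :
    siteOp z A * Qxy n x y - Qxy n x y * siteOp z A = 0 := by
  unfold Qxy
  have comm3 : ∀ B C : Matrix (Fin (n + 1)) (Fin (n + 1)) ℂ,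
      siteOp z A * (siteOp x B * siteOp y C) = siteOp x B * siteOp y C * siteOp z A := by
    intro B C
    rw [← mul_assoc, siteOp_comm hx, mul_assoc, siteOp_comm hy, ← mul_assoc]
  rw [mul_add, add_mul, mul_smul_comm, smul_mul_assoc, mul_add, add_mul, comm3, comm3, comm3]
  abel

theorem comm_R_Sm {x y : V} (hxy : x ≠ y) :
    Rxy n x y * siteOp x (Sm n) - siteOp x (Sm n) * Rxy n x y
      = - (siteOp x (Sm n) * siteOp y (Sp n)) - (2 : ℂ) • (siteOp x (S3 n) * siteOp y (S3 n)) := by
  unfold Rxy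
  have h1 := site_Sp_Sm (n := n) x
  have h3 := site_S3_Sm (n := n) x
  have c1 := siteOp_comm hxy (Sm n) (Sp n)
  have c3 := siteOp_comm hxy (Sm n) (S3 n)
  set P := siteOp x (Sp n) with hP
  set M := siteOp x (Sm n) with hM
  set Z := siteOp x (S3 n) with hZ
  set P' := siteOp y (Sp n) with hP'
  set Z' := siteOp y (S3 n) with hZ'
  have e1 : (Z * P' - P * Z') * M = Z * M * P' - P * M * Z' := by
    simp only [sub_mul, mul_assoc]
    rw [← c1, ← c3]
  have e2 : M * (Z * P' - P * Z') = M * Z * P' - M * P * Z' := by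
    simp only [mul_sub, mul_assoc]
  rw [e1, e2, h1, h3]
  simp only [add_mul, sub_mul, smul_mul_assoc]
  abel

theorem comm_R_Sm' {x y : V} (hxy : x ≠ y) :
    Rxy n x y * siteOp y (Sm n) - siteOp y (Sm n) * Rxy n x y
      = siteOp x (Sp n) * siteOp y (Sm n) + (2 : ℂ) • (siteOp x (S3 n) * siteOp y (S3 n)) := by
  have h := comm_R_Sm (n := n) hxy.symm
  rw [Rxy_comm hxy] at h
  rw [← siteOp_comm hxy (Sp n) (Sm n), ← siteOp_comm hxy (S3 n) (S3 n)] at h
  have h2 : Rxy n x y * siteOp y (Sm n) - siteOp y (Sm n) * Rxy n x y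
     = - (-Rxy n x y * siteOp y (Sm n) - siteOp y (Sm n) * -Rxy n x y) := by
    simp only [neg_mul, mul_neg]; abel
  rw [h2, h]
  abel

end pair

end Vale.Agent.P361
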