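import Mathlib
import Vale.Agent.P361.Spectral
import Vale.Agent.P361.Spin

/-!
Heisenberg Hamiltonian with general couplings; commutators with spin waves.
-/

namespace Vale.Agent.P361

open Matrix NormedSpace

/-- Commutator. -/
def cm {ι : Type*} [Fintype ι] (A B : Matrix ι ι ℂ) : Matrix ι ι ℂ := A * B - B * A

section cm

variable {ι : Type*} [Fintype ι] {κ : Type*}

theorem cm_def (A B : Matrix ι ι ℂ) : cm A B = A * B - B * A := rfl

theorem sum_cm (s : Finset κ) (f : κ → Matrix ι ι ℂ) (B : Matrix ι ι ℂ) :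
    cm (∑ k ∈ s, f k) B = ∑ k ∈ s, cm (f k) B := by
  simp only [cm, Finset.sum_mul, Finset.mul_sum, Finset.sum_sub_distrib]

theorem cm_sum (s : Finset κ) (f : κ → Matrix ι ι ℂ) (B : Matrix ι ι ℂ) :
    cm B (∑ k ∈ s, f k) = ∑ k ∈ s, cm B (f k) := by
  simp only [cm, Finset.sum_mul, Finset.mul_sum, Finset.sum_sub_distrib]

theorem smul_cm (c : ℂ) (A B : Matrix ι ι ℂ) : cm (c • A) B = c • cm A B := by
  simp only [cm, smul_mul_assoc, mul_smul_comm, smul_sub]

theorem cm_smul (c : ℂ) (A B : Matrix ι ι ℂ) : cm A (c • B) = c • cm A B := by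
  simp only [cm, smul_mul_assoc, mul_smul_comm, smul_sub]

theorem neg_cm (A B : Matrix ι ι ℂ) : cm (-A) B = - cm A B := by
  simp only [cm, neg_mul, mul_neg]; abel

theorem cm_neg (A B : Matrix ι ι ℂ) : cm A (-B) = - cm A B := by
  simp only [cm, neg_mul, mul_neg]; abel

theorem cm_add (A B C : Matrix ι ι ℂ) : cm A (B + C) = cm A B + cm A C := by
  simp only [cm, add_mul, mul_add]; abel

theorem cm_sub (A B C : Matrix ι ι ℂ) : cm A (B - C) = cm A B - cm A C := by
  simp only [cm, sub_mul, mul_sub]; abel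

theorem add_cm (A B C : Matrix ι ι ℂ) : cm (A + B) C = cm A C + cm B C := by
  simp only [cm, add_mul, mul_add]; abel

theorem sub_cm (A B C : Matrix ι ι ℂ) : cm (A - B) C = cm A C - cm B C := by
  simp only [cm, sub_mul, mul_sub]; abel

end cm

variable {V : Type*} [Fintype V] [DecidableEq V] {n : ℕ}

/-- Hamiltonian `-(1/2) ∑_{x,y} J x y S_x · S_y`. -/
noncomputable def ham (n : ℕ) (J : V → V → ℝ) : Matrix (V → Fin (n + 1)) (V → Fin (n + 1)) ℂ :=
  -((1 / 2 : ℂ) • ∑ x, ∑ y, (J x y : ℂ) • Qxy n x y)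

/-- Total `S³`. -/
noncomputable def magn (V : Type*) [Fintype V] [DecidableEq V] (n : ℕ) :
    Matrix (V → Fin (n + 1)) (V → Fin (n + 1)) ℂ :=
  ∑ x : V, siteOp x (S3 n)

/-- Spin wave operator `∑_x f x S⁺_x`. -/
noncomputable def wave (n : ℕ) (f : V → ℝ) : Matrix (V → Fin (n + 1)) (V → Fin (n + 1)) ℂ :=
  ∑ x, (f x : ℂ) • siteOp x (Sp n)

theorem wave_conjTranspose (f : V → ℝ) :
    (wave n f)ᴴ = ∑ x, (f x : ℂ) • siteOp x (Sm n) := by
  unfold wave
  rw [conjTranspose_sum]
  apply Finset.sum_congr rfl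
  intro x _
  rw [conjTranspose_smul, siteOp_conjTranspose]
  simp [Sm]

theorem lie_Sp_Sm_site (x y : V) : cm (siteOp x (Sp n)) (siteOp y (Sm n))
    = if x = y then (2 : ℂ) • siteOp x (S3 n) else 0 := by
  rw [cm_def]
  split_ifs with h
  · subst h
    rw [site_Sp_Sm]; abel
  · rw [siteOp_comm h]; abel

theorem lie_wave_wave (f : V → ℝ) : cm (wave n f) (wave n f)ᴴ
    = ∑ x, ((2 * f x ^ 2 : ℝ) : ℂ) • siteOp x (S3 n) := by
  rw [wave_conjTranspose]
  unfold wave
  rw [sum_cm]
  apply Finset.sum_congr rfl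
  intro x _
  rw [cm_sum, Finset.sum_eq_single x]
  · rw [smul_cm, cm_smul, lie_Sp_Sm_site, if_pos rfl, smul_smul, smul_smul]
    congr 1
    push_cast
    ring
  · intro y _ hy
    rw [smul_cm, cm_smul, lie_Sp_Sm_site, if_neg hy.symm, smul_zero, smul_zero]
  · simp

theorem lie_wave_magn (f : V → ℝ) : cm (wave n f) (magn V n) = - wave n f := by
  unfold wave magn
  rw [sum_cm, ← Finset.sum_neg_distrib]
  apply Finset.sum_congr rfl
  intro x _
  rw [cm_sum, Finset.sum_eq_single x]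
  · rw [smul_cm, cm_def, site_S3_Sp]
    simp
  · intro y _ hy
    rw [smul_cm, cm_def, siteOp_comm hy.symm, sub_self, smul_zero]
  · simp

theorem lie_wave_Q (f : V → ℝ) {x y : V} (hxy : x ≠ y) :
    cm (wave n f) (Qxy n x y) = ((f x - f y : ℝ) : ℂ) • Rxy n x y := by
  unfold wave
  rw [sum_cm]
  have h : ∀ z, cm ((f z : ℂ) • siteOp z (Sp n)) (Qxy n x y)
      = (if z = x then (f x : ℂ) • Rxy n x y else 0)
        + (if z = y then -((f y : ℂ) • Rxy n x y) else 0) := by
    intro z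
    rw [smul_cm, cm_def]
    by_cases h1 : z = x
    · subst h1
      rw [if_pos rfl, if_neg hxy, add_zero, comm_Sp_Q hxy]
    · by_cases h2 : z = y
      · subst h2
        rw [if_neg h1, if_pos rfl, zero_add, comm_Sp_Q' hxy, smul_neg]
      · rw [if_neg h1, if_neg h2, comm_Sp_Q_other h1 h2]
        simp
  rw [Finset.sum_congr rfl (fun z _ => h z), Finset.sum_add_distrib, Finset.sum_ite_eq',
    Finset.sum_ite_eq']
  simp only [Finset.mem_univ, if_true]
  push_cast
  rw [sub_smul]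
  abel

theorem lie_R_wave (f : V → ℝ) {x y : V} (hxy : x ≠ y) :
    cm (Rxy n x y) (wave n f)ᴴ =
      (f x : ℂ) • (- (siteOp x (Sm n) * siteOp y (Sp n))
          - (2 : ℂ) • (siteOp x (S3 n) * siteOp y (S3 n)))
      + (f y : ℂ) • (siteOp x (Sp n) * siteOp y (Sm n)
          + (2 : ℂ) • (siteOp x (S3 n) * siteOp y (S3 n))) := by
  rw [wave_conjTranspose, cm_sum]
  have h : ∀ z, cm (Rxy n x y) ((f z : ℂ) • siteOp z (Sm n))
      = (if z = x then (f x : ℂ) • (- (siteOp x (Sm n) * siteOp y (Sp n))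
          - (2 : ℂ) • (siteOp x (S3 n) * siteOp y (S3 n))) else 0)
        + (if z = y then (f y : ℂ) • (siteOp x (Sp n) * siteOp y (Sm n)
          + (2 : ℂ) • (siteOp x (S3 n) * siteOp y (S3 n))) else 0) := by
    intro z
    rw [cm_smul, cm_def]
    by_cases h1 : z = x
    · subst h1
      rw [if_pos rfl, if_neg hxy, add_zero, comm_R_Sm hxy]
    · by_cases h2 : z = y
      · subst h2
        rw [if_neg h1, if_pos rfl, zero_add, comm_R_Sm' hxy]
      · rw [if_neg h1, if_neg h2]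
        have : Rxy n x y * siteOp z (Sm n) = siteOp z (Sm n) * Rxy n x y := by
          unfold Rxy
          have comm3 : ∀ B C : Matrix (Fin (n + 1)) (Fin (n + 1)) ℂ,
              siteOp x B * siteOp y C * siteOp z (Sm n)
                = siteOp z (Sm n) * (siteOp x B * siteOp y C) := by
            intro B C
            rw [← mul_assoc, siteOp_comm h1, mul_assoc, mul_assoc, siteOp_comm h2]
          rw [sub_mul, mul_sub, comm3, comm3]
        rw [this]
        simp
  rw [Finset.sum_congr rfl (fun z _ => h z), Finset.sum_add_distrib, Finset.sum_ite_eq',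
    Finset.sum_ite_eq']
  simp only [Finset.mem_univ, if_true]

theorem lie_wave_ham (f : V → ℝ) (J : V → V → ℝ) (hJ : ∀ x, J x x = 0) :
    cm (wave n f) (ham n J) =
      -((1 / 2 : ℂ) • ∑ x, ∑ y, ((J x y * (f x - f y) : ℝ) : ℂ) • Rxy n x y) := by
  unfold ham
  rw [cm_neg, cm_smul, cm_sum]
  congr 2
  apply Finset.sum_congr rfl
  intro x _
  rw [cm_sum]
  apply Finset.sum_congr rfl
  intro y _
  rw [cm_smul]
  by_cases hxy : x = y
  · subst hxy
    simp [hJ]
  · rw [lie_wave_Q f hxy, smul_smul]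
    congr 1
    push_cast
    ring

theorem lie_lie_wave_ham (f : V → ℝ) (J : V → V → ℝ) (hJ : ∀ x, J x x = 0) :
    cm (cm (wave n f) (ham n J)) (wave n f)ᴴ =
      (1 / 2 : ℂ) • ∑ x, ∑ y, ((J x y * (f x - f y) : ℝ) : ℂ) •
        (((f x - f y : ℝ) : ℂ) • ((2 : ℂ) • (siteOp x (S3 n) * siteOp y (S3 n)))
          + (f x : ℂ) • (siteOp x (Sm n) * siteOp y (Sp n))
          - (f y : ℂ) • (siteOp x (Sp n) * siteOp y (Sm n))) := by
  rw [lie_wave_ham f J hJ, neg_cm, smul_cm, sum_cm, ← smul_neg, ← Finset.sum_neg_distrib]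
  congr 1
  apply Finset.sum_congr rfl
  intro x _
  rw [sum_cm, ← Finset.sum_neg_distrib]
  apply Finset.sum_congr rfl
  intro y _
  rw [smul_cm]
  by_cases hxy : x = y
  · subst hxy
    simp [hJ]
  · rw [lie_R_wave f hxy, ← smul_neg]
    congr 1
    push_cast
    rw [sub_smul, smul_sub, smul_neg, smul_add]
    abel

end Vale.Agent.P361
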