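import Mathlib
import Vale.Agent.P361.Heis

/-!
Thermal expectations and the finite-volume magnetization bound.
-/

namespace Vale.Agent.P361

open Matrix NormedSpace

section general

variable {ι : Type*} [Fintype ι] [DecidableEq ι]

/-- Unnormalized thermal expectation `Re Tr (X exp(-K))`. -/
noncomputable def ev (K X : Matrix ι ι ℂ) : ℝ := (trace (X * exp (-K))).re

theorem ev_add (K X Y : Matrix ι ι ℂ) : ev K (X + Y) = ev K X + ev K Y := by
  simp [ev, add_mul]

theorem ev_sub (K X Y : Matrix ι ι ℂ) : ev K (X - Y) = ev K X - ev K Y := by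
  simp [ev, sub_mul]

theorem ev_neg (K X : Matrix ι ι ℂ) : ev K (-X) = - ev K X := by
  simp [ev]

theorem ev_smul (K X : Matrix ι ι ℂ) (c : ℝ) : ev K ((c : ℂ) • X) = c * ev K X := by
  simp [ev]

theorem ev_sum {κ : Type*} (s : Finset κ) (K : Matrix ι ι ℂ) (X : κ → Matrix ι ι ℂ) :
    ev K (∑ k ∈ s, X k) = ∑ k ∈ s, ev K (X k) := by
  simp [ev, Finset.sum_mul, trace_sum]

theorem ev_conjTranspose (K X : Matrix ι ι ℂ) (hK : K.IsHermitian) : ev K Xᴴ = ev K X := by
  unfold ev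
  have hρ : (exp (-K)).IsHermitian := IsHermitian.exp hK.neg
  have h1 : Xᴴ * exp (-K) = (exp (-K) * X)ᴴ := by
    rw [conjTranspose_mul, hρ.eq]
  rw [h1, trace_conjTranspose, trace_mul_comm]
  simp

theorem ev_nonneg (K C : Matrix ι ι ℂ) (hK : K.IsHermitian) : 0 ≤ ev K (Cᴴ * C) := by
  obtain ⟨U, E, hU1, hU2, hKd, hexp⟩ := exists_diag K hK
  unfold ev
  rw [hexp, trace_conj_diag, Complex.re_sum]
  apply Finset.sum_nonneg
  intro i _
  have h1 : Uᴴ * (Cᴴ * C) * U = (C * U)ᴴ * (C * U) := by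
    rw [conjTranspose_mul]; simp only [Matrix.mul_assoc]
  rw [h1, Complex.re_mul_ofReal, Matrix.mul_apply, Complex.re_sum]
  apply mul_nonneg _ (Real.exp_pos _).le
  apply Finset.sum_nonneg
  intro j _
  rw [conjTranspose_apply]
  have : star ((C * U) j i) * (C * U) j i = ((Complex.normSq ((C * U) j i) : ℝ) : ℂ) :=
    (Complex.normSq_eq_conj_mul_self).symm
  rw [this, Complex.ofReal_re]
  exact Complex.normSq_nonneg _

theorem ev_one_pos [Nonempty ι] (K : Matrix ι ι ℂ) (hK : K.IsHermitian) : 0 < ev K 1 := by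
  obtain ⟨U, E, hU1, hU2, hKd, hexp⟩ := exists_diag K hK
  unfold ev
  rw [hexp, trace_conj_diag, Complex.re_sum]
  apply Finset.sum_pos
  · intro i _
    rw [Matrix.mul_one, hU2, Matrix.one_apply_eq, one_mul, Complex.ofReal_re]
    exact Real.exp_pos _
  · exact Finset.univ_nonempty

theorem ev_diagonal_nonneg (K : Matrix ι ι ℂ) (hK : K.IsHermitian) (d : ι → ℝ)
    (hd : ∀ i, 0 ≤ d i) : 0 ≤ ev K (diagonal (fun i => ((d i : ℝ) : ℂ))) := by
  have h := ev_nonneg K (diagonal (fun i => ((Real.sqrt (d i) : ℝ) : ℂ))) hK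
  rw [diagonal_conjTranspose, diagonal_mul_diagonal] at h
  have e : (fun i => ((d i : ℝ) : ℂ)) = (fun i => star (fun i => ((Real.sqrt (d i) : ℝ) : ℂ)) i *
      ((Real.sqrt (d i) : ℝ) : ℂ)) := by
    ext i
    simp only [Pi.star_apply, Complex.star_def, Complex.conj_ofReal]
    rw [← Complex.ofReal_mul, Real.mul_self_sqrt (hd i)]
  rw [e]
  exact h

theorem ev_core (K A : Matrix ι ι ℂ) (hK : K.IsHermitian) (y0 : ℝ) (hy0 : 0 < y0) :
    coefA y0 * ev K (cm A Aᴴ) - coefB y0 / 2 * ev K (cm (cm A K) Aᴴ) ≤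
      ev K (A * Aᴴ + Aᴴ * A) := core K A hK y0 hy0

end general

section spin

variable {V : Type*} [Fintype V] [DecidableEq V] {n : ℕ}

theorem Qxy_conjTranspose {x y : V} (hxy : x ≠ y) : (Qxy n x y)ᴴ = Qxy n x y := by
  unfold Qxy
  rw [conjTranspose_add, conjTranspose_smul, conjTranspose_add, conjTranspose_mul,
    conjTranspose_mul, conjTranspose_mul, siteOp_conjTranspose, siteOp_conjTranspose,
    siteOp_conjTranspose, siteOp_conjTranspose, siteOp_conjTranspose, siteOp_conjTranspose,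
    S3_conjTranspose]
  have h1 : (Sm n)ᴴ = Sp n := by unfold Sm; simp
  have h2 : (Sp n)ᴴ = Sm n := rfl
  rw [h1, h2, ← siteOp_comm hxy (Sm n) (Sp n), ← siteOp_comm hxy (Sp n) (Sm n),
    ← siteOp_comm hxy (S3 n) (S3 n)]
  have h3 : star (1 / 2 : ℂ) = 1 / 2 := by simp
  rw [h3]
  congr 2
  abel

theorem ham_isHermitian (J : V → V → ℝ) (hJ : ∀ x, J x x = 0) : (ham n J).IsHermitian := by
  unfold IsHermitian ham
  rw [conjTranspose_neg, conjTranspose_smul, conjTranspose_sum]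
  have h3 : star (1 / 2 : ℂ) = 1 / 2 := by simp
  rw [h3]
  congr 2
  apply Finset.sum_congr rfl
  intro x _
  rw [conjTranspose_sum]
  apply Finset.sum_congr rfl
  intro y _
  rw [conjTranspose_smul]
  by_cases hxy : x = y
  · subst hxy; simp [hJ]
  · rw [Qxy_conjTranspose hxy]; simp

theorem magn_isHermitian : (magn V n).IsHermitian := by
  unfold IsHermitian magn
  rw [conjTranspose_sum]
  apply Finset.sum_congr rfl
  intro x _
  rw [siteOp_conjTranspose, S3_conjTranspose]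

/-- `β (H - h M)`. -/
noncomputable def Kmat (n : ℕ) (J : V → V → ℝ) (β h : ℝ) :
    Matrix (V → Fin (n + 1)) (V → Fin (n + 1)) ℂ :=
  (β : ℂ) • (ham n J - (h : ℂ) • magn V n)

theorem Kmat_isHermitian (J : V → V → ℝ) (hJ : ∀ x, J x x = 0) (β h : ℝ) :
    (Kmat n J β h).IsHermitian := by
  unfold Kmat IsHermitian
  rw [conjTranspose_smul, conjTranspose_sub, conjTranspose_smul, (ham_isHermitian J hJ).eq,
    magn_isHermitian.eq]
  simp

/-! ### The exchange operator is at most `S²` -/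

/-- auxiliary single-site matrix. -/
noncomputable def alf (n : ℕ) (a : Fin n) : Matrix (Fin (n + 1)) (Fin (n + 1)) ℂ :=
  Matrix.single 0 a.castSucc ((Real.sqrt ((n : ℝ) - (a : ℝ)) : ℝ) : ℂ)

/-- auxiliary single-site matrix. -/
noncomputable def gam (n : ℕ) (a : Fin n) : Matrix (Fin (n + 1)) (Fin (n + 1)) ℂ :=
  Matrix.single 0 a.succ ((Real.sqrt ((a : ℝ) + 1) : ℝ) : ℂ)

theorem sum_alf_alf : ∑ a, (alf n a)ᴴ * alf n a = ((n : ℂ) / 2) • 1 + S3 n := by
  ext i j
  rw [Matrix.sum_apply]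
  have h : ∀ a : Fin n, ((alf n a)ᴴ * alf n a) i j =
      if a.castSucc = i ∧ a.castSucc = j then ((((n : ℝ) - (a : ℝ)) : ℝ) : ℂ) else 0 := by
    intro a
    unfold alf
    rw [conjTranspose_single, single_mul_single_same, single_apply]
    have : ((n : ℝ) - (a : ℝ)) ≥ 0 := by
      have := a.2
      have : (a : ℝ) ≤ n := by exact_mod_cast this.le
      linarith
    simp only [Complex.star_def, Complex.conj_ofReal]
    rw [← Complex.ofReal_mul, Real.mul_self_sqrt this]
  rw [Finset.sum_congr rfl (fun a _ => h a)]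
  unfold S3
  rw [Matrix.add_apply, Matrix.smul_apply, Matrix.one_apply, diagonal_apply]
  by_cases hij : i = j
  · subst hij
    simp only [and_self, if_true]
    refine Fin.lastCases ?_ (fun i' => ?_) i
    · rw [Finset.sum_eq_zero]
      · simp
        ring
      · intro a _
        rw [if_neg]
        exact Fin.castSucc_ne_last a
    · rw [Finset.sum_eq_single i']
      · simp
        ring
      · intro b _ hb
        rw [if_neg]
        intro h
        exact hb (Fin.castSucc_injective _ h)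
      · simp
  · rw [Finset.sum_eq_zero]
    · simp [hij]
    · intro a _
      rw [if_neg]
      rintro ⟨h1, h2⟩
      exact hij (h1.symm.trans h2)

theorem sum_gam_gam : ∑ a, (gam n a)ᴴ * gam n a = ((n : ℂ) / 2) • 1 - S3 n := by
  ext i j
  rw [Matrix.sum_apply]
  have h : ∀ a : Fin n, ((gam n a)ᴴ * gam n a) i j =
      if a.succ = i ∧ a.succ = j then ((((a : ℝ) + 1) : ℝ) : ℂ) else 0 := by
    intro a
    unfold gam
    rw [conjTranspose_single, single_mul_single_same, single_apply]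
    have : ((a : ℝ) + 1) ≥ 0 := by positivity
    simp only [Complex.star_def, Complex.conj_ofReal]
    rw [← Complex.ofReal_mul, Real.mul_self_sqrt this]
  rw [Finset.sum_congr rfl (fun a _ => h a)]
  unfold S3
  rw [Matrix.sub_apply, Matrix.smul_apply, Matrix.one_apply, diagonal_apply]
  by_cases hij : i = j
  · subst hij
    simp only [and_self, if_true]
    refine Fin.cases ?_ (fun i' => ?_) i
    · rw [Finset.sum_eq_zero]
      · simp
      · intro a _
        rw [if_neg]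
        exact Fin.succ_ne_zero a
    · rw [Finset.sum_eq_single i']
      · simp
      · intro b _ hb
        rw [if_neg]
        intro h
        exact hb (Fin.succ_injective _ h)
      · simp
  · rw [Finset.sum_eq_zero]
    · simp [hij]
    · intro a _
      rw [if_neg]
      rintro ⟨h1, h2⟩
      exact hij (h1.symm.trans h2)

theorem sum_alf_gam : ∑ a, (alf n a)ᴴ * gam n a = Sp n := by
  ext i j
  rw [Matrix.sum_apply]
  have h : ∀ a : Fin n, ((alf n a)ᴴ * gam n a) i j =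
      if a.castSucc = i ∧ a.succ = j then
        ((Real.sqrt ((n : ℝ) - (a : ℝ)) * Real.sqrt ((a : ℝ) + 1) : ℝ) : ℂ) else 0 := by
    intro a
    unfold gam alf
    rw [conjTranspose_single, single_mul_single_same, single_apply]
    simp only [Complex.star_def, Complex.conj_ofReal]
    rw [← Complex.ofReal_mul]
  rw [Finset.sum_congr rfl (fun a _ => h a)]
  unfold Sp
  rw [Matrix.of_apply]
  by_cases hij : (i : ℕ) + 1 = (j : ℕ)
  · rw [if_pos hij]
    have hi : (i : ℕ) < n := by have := j.2; omega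
    rw [Finset.sum_eq_single (⟨i, hi⟩ : Fin n)]
    · have e1 : (⟨i, hi⟩ : Fin n).castSucc = i := by ext; simp
      have e2 : (⟨i, hi⟩ : Fin n).succ = j := by ext; simp [hij]
      rw [if_pos ⟨e1, e2⟩]
      congr 1
      rw [← Real.sqrt_mul]
      · congr 1
        have : (j : ℝ) = (i : ℝ) + 1 := by exact_mod_cast hij.symm
        rw [this]
        simp
        ring
      · have : (i : ℝ) ≤ n := by exact_mod_cast hi.le
        simp
        linarith
    · intro b _ hb
      rw [if_neg]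
      rintro ⟨h1, h2⟩
      apply hb
      ext
      simpa using congrArg Fin.val h1
    · simp
  · rw [if_neg hij, Finset.sum_eq_zero]
    intro a _
    rw [if_neg]
    rintro ⟨h1, h2⟩
    apply hij
    rw [← h1, ← h2]
    simp

theorem sum_gam_alf : ∑ a, (gam n a)ᴴ * alf n a = Sm n := by
  unfold Sm
  rw [← sum_alf_gam, conjTranspose_sum]
  simp [conjTranspose_mul]

/-- The operator whose squares sum to `2 (S² - S_x·S_y)`. -/
noncomputable def Cab (n : ℕ) (x y : V) (a b : Fin n) :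
    Matrix (V → Fin (n + 1)) (V → Fin (n + 1)) ℂ :=
  siteOp x (alf n a) * siteOp y (gam n b) - siteOp x (gam n a) * siteOp y (alf n b)

theorem sum_Cab {x y : V} (hxy : x ≠ y) : ∑ a, ∑ b, (Cab n x y a b)ᴴ * Cab n x y a b
    = (2 : ℂ) • (((n : ℂ) / 2 * ((n : ℂ) / 2)) • 1 - Qxy n x y) := by
  have hmul : ∀ A B C D : Matrix (Fin (n + 1)) (Fin (n + 1)) ℂ,
      (siteOp x A * siteOp y B)ᴴ * (siteOp x C * siteOp y D)
        = siteOp x (Aᴴ * C) * siteOp y (Bᴴ * D) := by
    intro A B C D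
    rw [conjTranspose_mul, siteOp_conjTranspose, siteOp_conjTranspose, ← siteOp_mul, ← siteOp_mul]
    have := siteOp_comm (n := n) hxy (Aᴴ * C) (Bᴴ)
    rw [← siteOp_mul] at this
    calc siteOp y Bᴴ * siteOp x Aᴴ * (siteOp x C * siteOp y D)
        = siteOp y Bᴴ * (siteOp x Aᴴ * siteOp x C) * siteOp y D := by
          simp only [Matrix.mul_assoc]
      _ = (siteOp x Aᴴ * siteOp x C) * siteOp y Bᴴ * siteOp y D := by rw [this]
      _ = _ := by simp only [Matrix.mul_assoc]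
  have h : ∀ a b, (Cab n x y a b)ᴴ * Cab n x y a b
      = siteOp x ((alf n a)ᴴ * alf n a) * siteOp y ((gam n b)ᴴ * gam n b)
        - siteOp x ((alf n a)ᴴ * gam n a) * siteOp y ((gam n b)ᴴ * alf n b)
        - siteOp x ((gam n a)ᴴ * alf n a) * siteOp y ((alf n b)ᴴ * gam n b)
        + siteOp x ((gam n a)ᴴ * gam n a) * siteOp y ((alf n b)ᴴ * alf n b) := by
    intro a b
    unfold Cab
    rw [conjTranspose_sub, sub_mul, mul_sub, mul_sub, hmul, hmul, hmul, hmul]
    abel
  simp only [h]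
  have hs : ∀ A B : Fin n → Matrix (Fin (n + 1)) (Fin (n + 1)) ℂ,
      ∑ a, ∑ b, siteOp x (A a) * siteOp y (B b) = siteOp x (∑ a, A a) * siteOp y (∑ b, B b) := by
    intro A B
    rw [siteOp_sum, siteOp_sum, Finset.sum_mul_sum]
  simp only [Finset.sum_add_distrib, Finset.sum_sub_distrib]
  rw [hs, hs, hs, hs, sum_alf_alf, sum_gam_gam, sum_alf_gam, sum_gam_alf]
  rw [siteOp_add, siteOp_add, siteOp_sub, siteOp_sub, siteOp_smul, siteOp_smul, siteOp_one,
    siteOp_one]
  unfold Qxy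
  simp only [add_mul, mul_add, sub_mul, mul_sub, smul_mul_assoc, mul_smul_comm, one_mul, mul_one,
    smul_sub, smul_add, smul_smul]
  norm_num
  module

theorem ev_Q_le (K : Matrix (V → Fin (n + 1)) (V → Fin (n + 1)) ℂ) (hK : K.IsHermitian)
    {x y : V} (hxy : x ≠ y) : ev K (Qxy n x y) ≤ ((n : ℝ) / 2) ^ 2 * ev K 1 := by
  have h := sum_Cab (n := n) hxy
  have h1 : 0 ≤ ev K (∑ a, ∑ b, (Cab n x y a b)ᴴ * Cab n x y a b) := by
    rw [ev_sum]
    apply Finset.sum_nonneg
    intro a _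
    rw [ev_sum]
    apply Finset.sum_nonneg
    intro b _
    exact ev_nonneg K _ hK
  rw [h] at h1
  have e1 : (2 : ℂ) = ((2 : ℝ) : ℂ) := by norm_num
  have e2 : ((n : ℂ) / 2 * ((n : ℂ) / 2)) = (((n : ℝ) / 2 * ((n : ℝ) / 2) : ℝ) : ℂ) := by
    push_cast; ring
  rw [e2, e1, ev_smul, ev_sub, ev_smul] at h1
  nlinarith

theorem ev_ZZ_le (K : Matrix (V → Fin (n + 1)) (V → Fin (n + 1)) ℂ) (hK : K.IsHermitian)
    (x y : V) : ev K (siteOp x (S3 n) * siteOp y (S3 n)) ≤ ((n : ℝ) / 2) ^ 2 * ev K 1 := by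
  have h := ev_diagonal_nonneg K hK
    (fun σ => ((n : ℝ) / 2) ^ 2 - ((n : ℝ) / 2 - (σ x : ℝ)) * ((n : ℝ) / 2 - (σ y : ℝ))) (by
      intro σ
      have hx : (σ x : ℝ) ≤ n := by
        have := (σ x).2
        have : (σ x : ℕ) ≤ n := by omega
        exact_mod_cast this
      have hy : (σ y : ℝ) ≤ n := by
        have := (σ y).2
        have : (σ y : ℕ) ≤ n := by omega
        exact_mod_cast this
      have hx0 : (0 : ℝ) ≤ (σ x : ℝ) := by positivity
      have hy0 : (0 : ℝ) ≤ (σ y : ℝ) := by positivity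
      nlinarith)
  have e : diagonal (fun σ : V → Fin (n + 1) => ((((n : ℝ) / 2) ^ 2 - ((n : ℝ) / 2 - (σ x : ℝ)) *
      ((n : ℝ) / 2 - (σ y : ℝ)) : ℝ) : ℂ)) =
      (((((n : ℝ) / 2) ^ 2 : ℝ)) : ℂ) • 1 - siteOp x (S3 n) * siteOp y (S3 n) := by
    unfold S3
    rw [siteOp_diagonal, siteOp_diagonal, diagonal_mul_diagonal, ← diagonal_one, ← diagonal_smul,
      diagonal_sub]
    congr 1
    ext σ
    simp
  rw [e, ev_sub, ev_smul] at h
  linarith

theorem ev_double (K : Matrix (V → Fin (n + 1)) (V → Fin (n + 1)) ℂ) (hK : K.IsHermitian)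
    (f : V → ℝ) (J : V → V → ℝ) (hJ : ∀ x, J x x = 0) (hJ0 : ∀ x y, 0 ≤ J x y) :
    ev K (cm (cm (wave n f) (ham n J)) (wave n f)ᴴ) ≤
      (∑ x, ∑ y, J x y * (f x - f y) ^ 2) * (((n : ℝ) / 2) ^ 2 * ev K 1) := by
  rw [lie_lie_wave_ham f J hJ]
  have e1 : (1 / 2 : ℂ) = ((1 / 2 : ℝ) : ℂ) := by norm_num
  rw [e1, ev_smul, ev_sum, Finset.mul_sum, Finset.sum_mul]
  apply Finset.sum_le_sum
  intro x _
  rw [ev_sum, Finset.mul_sum, Finset.sum_mul]
  apply Finset.sum_le_sum
  intro y _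
  rw [ev_smul]
  by_cases hxy : x = y
  · subst hxy; simp [hJ]
  have e2 : (2 : ℂ) = ((2 : ℝ) : ℂ) := by norm_num
  rw [ev_sub, ev_add, ev_smul, e2, ev_smul, ev_smul, ev_smul]
  have h1 : ev K (siteOp x (Sm n) * siteOp y (Sp n)) = ev K (siteOp x (Sp n) * siteOp y (Sm n)) := by
    rw [← ev_conjTranspose K _ hK, conjTranspose_mul, siteOp_conjTranspose, siteOp_conjTranspose]
    have h1 : (Sm n)ᴴ = Sp n := by unfold Sm; simp
    have h2 : (Sp n)ᴴ = Sm n := rfl
    rw [h1, h2, ← siteOp_comm hxy]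
  have h2 : ev K (Qxy n x y) = ev K (siteOp x (Sp n) * siteOp y (Sm n))
      + ev K (siteOp x (S3 n) * siteOp y (S3 n)) := by
    unfold Qxy
    rw [ev_add, e1, ev_smul, ev_add, h1]
    ring
  have h3 := ev_Q_le K hK hxy
  have h4 := ev_ZZ_le K hK x y
  rw [h2] at h3
  rw [h1]
  have h5 : 0 ≤ J x y * (f x - f y) ^ 2 := mul_nonneg (hJ0 x y) (sq_nonneg _)
  nlinarith

theorem anticomm_wave (f : V → ℝ) : wave n f * (wave n f)ᴴ + (wave n f)ᴴ * wave n f
    = ∑ x, ∑ y, ((f x * f y : ℝ) : ℂ) •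
      (siteOp x (Sp n) * siteOp y (Sm n) + siteOp y (Sm n) * siteOp x (Sp n)) := by
  rw [wave_conjTranspose]
  unfold wave
  rw [Finset.sum_mul_sum, Finset.sum_mul_sum]
  rw [Finset.sum_comm (f := fun i j => (f i : ℂ) • siteOp i (Sm n) * (f j : ℂ) • siteOp j (Sp n)),
    ← Finset.sum_add_distrib]
  apply Finset.sum_congr rfl
  intro x _
  rw [← Finset.sum_add_distrib]
  apply Finset.sum_congr rfl
  intro y _
  rw [smul_mul_smul_comm, smul_mul_smul_comm, smul_add]
  push_cast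
  rw [mul_comm (f y : ℂ)]

theorem ev_site_le (K : Matrix (V → Fin (n + 1)) (V → Fin (n + 1)) ℂ) (hK : K.IsHermitian)
    (x : V) : ev K (siteOp x (Sp n) * siteOp x (Sm n) + siteOp x (Sm n) * siteOp x (Sp n)) ≤
      (n : ℝ) * ev K 1 + 2 * ((n : ℝ) - 1) * ((n : ℝ) / 2 * ev K 1 - ev K (siteOp x (S3 n))) := by
  have h := ev_diagonal_nonneg K hK
    (fun σ => 2 * ((σ x : ℝ) * ((σ x : ℝ) - 1))) (by
      intro σ
      rcases Nat.eq_zero_or_pos (σ x : ℕ) with h | h
      · simp [h]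
      · have h1 : (1 : ℝ) ≤ (σ x : ℝ) := by exact_mod_cast h
        have : 0 ≤ (σ x : ℝ) - 1 := by linarith
        positivity)
  have e : diagonal (fun σ : V → Fin (n + 1) => ((2 * ((σ x : ℝ) * ((σ x : ℝ) - 1)) : ℝ) : ℂ)) =
      ((n : ℝ) : ℂ) • 1 + ((2 * ((n : ℝ) - 1) : ℝ) : ℂ) • ((((n : ℝ) / 2 : ℝ) : ℂ) • 1
        - siteOp x (S3 n))
      - (siteOp x (Sp n) * siteOp x (Sm n) + siteOp x (Sm n) * siteOp x (Sp n)) := by
    rw [siteOp_mul, siteOp_mul, Sp_mul_Sm, Sm_mul_Sp]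
    unfold S3
    rw [siteOp_diagonal, siteOp_diagonal, siteOp_diagonal, diagonal_add, ← diagonal_one,
      ← diagonal_smul, ← diagonal_smul, diagonal_sub, ← diagonal_smul, diagonal_add, diagonal_sub]
    congr 1
    ext σ
    simp only [Pi.smul_apply, smul_eq_mul, mul_one]
    push_cast
    ring
  rw [e, ev_sub, ev_add, ev_smul, ev_smul, ev_sub, ev_smul] at h
  linarith

end spin

end Vale.Agent.P361
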