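import Mathlib
import Vale.Agent.P361.Defs

/-!
Plane waves on the box.
-/

namespace Vale.Agent.P361

open Finset

/-- momentum coordinate -/
noncomputable def theta (L : ℕ) (l : Fin L) : ℝ := 2 * Real.pi * (l : ℝ) / (L : ℝ)

/-- phase `k · x` -/
noncomputable def phase {N : ℕ} (k : Fin 3 → Fin (2 * N + 1)) (x : Site N) : ℝ :=
  ∑ i, theta (2 * N + 1) (k i) * ((x i : ℤ) : ℝ)

theorem sum_exp_theta (L : ℕ) (hL : 0 < L) (d : ℤ) (hd : |d| < L) :
    ∑ l : Fin L, Complex.exp (Complex.I * ((theta L l * (d : ℝ) : ℝ) : ℂ))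
      = if d = 0 then (L : ℂ) else 0 := by
  split_ifs with h
  · subst h; simp
  · set ζ : ℂ := Complex.exp (2 * Real.pi * Complex.I * (d : ℂ) / (L : ℂ)) with hζ
    have hLne : (L : ℂ) ≠ 0 := by exact_mod_cast hL.ne'
    have h1 : ∀ l : Fin L, Complex.exp (Complex.I * ((theta L l * (d : ℝ) : ℝ) : ℂ))
        = ζ ^ (l : ℕ) := by
      intro l
      rw [hζ, ← Complex.exp_nat_mul]
      congr 1
      unfold theta
      push_cast
      field_simp
    rw [Finset.sum_congr rfl (fun l _ => h1 l), Fin.sum_univ_eq_sum_range (fun i => ζ ^ i) L]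
    have hζ1 : ζ ^ L = 1 := by
      rw [hζ, ← Complex.exp_nat_mul, Complex.exp_eq_one_iff]
      refine ⟨d, ?_⟩
      field_simp
    have hζ2 : ζ ≠ 1 := by
      intro h2
      rw [hζ, Complex.exp_eq_one_iff] at h2
      obtain ⟨m, hm⟩ := h2
      have hpi : (2 * (Real.pi : ℂ) * Complex.I) ≠ 0 := by
        simp [Real.pi_ne_zero]
      have h3 : (d : ℂ) = (m : ℂ) * (L : ℂ) := by
        have h4 : (2 * (Real.pi : ℂ) * Complex.I) * (d : ℂ) =
            (2 * (Real.pi : ℂ) * Complex.I) * ((m : ℂ) * (L : ℂ)) := by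
          have h5 : 2 * (Real.pi : ℂ) * Complex.I * (d : ℂ)
              = (2 * Real.pi * Complex.I * (d : ℂ) / (L : ℂ)) * L := by
            field_simp
          rw [h5, hm]; ring
        exact mul_left_cancel₀ hpi h4
      have h6 : d = m * (L : ℤ) := by exact_mod_cast h3
      have hm0 : m ≠ 0 := by
        rintro rfl
        simp at h6
        exact h h6
      have h7 : (1 : ℤ) ≤ |m| := Int.one_le_abs hm0
      rw [h6, abs_mul] at hd
      have h8 : |(L : ℤ)| = L := abs_of_nonneg (by positivity)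
      rw [h8] at hd
      have hL' : (0 : ℤ) < L := by exact_mod_cast hL
      nlinarith
    have := mul_geom_sum ζ L
    rw [hζ1, sub_self] at this
    rcases mul_eq_zero.1 this with h9 | h9
    · exact absurd (sub_eq_zero.1 h9) hζ2
    · exact h9

theorem sum_cos_phase {N : ℕ} (x y : Site N) :
    ∑ k : Fin 3 → Fin (2 * N + 1), Real.cos (phase k x - phase k y)
      = if x = y then (Fintype.card (Site N) : ℝ) else 0 := by
  have h1 : ∀ k : Fin 3 → Fin (2 * N + 1), Real.cos (phase k x - phase k y)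
      = (∏ i, Complex.exp (Complex.I *
        ((theta (2 * N + 1) (k i) * (((x i : ℤ) - (y i : ℤ) : ℤ) : ℝ) : ℝ) : ℂ))).re := by
    intro k
    rw [← Complex.exp_sum, ← Finset.mul_sum, ← Complex.ofReal_sum, mul_comm,
      Complex.exp_ofReal_mul_I_re]
    congr 1
    unfold phase
    rw [← Finset.sum_sub_distrib]
    apply Finset.sum_congr rfl
    intro i _
    push_cast
    ring
  rw [Finset.sum_congr rfl (fun k _ => h1 k), ← Complex.re_sum]
  have h2 := Finset.prod_univ_sum (fun _ : Fin 3 => (Finset.univ : Finset (Fin (2 * N + 1))))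
    (fun i l => Complex.exp (Complex.I *
        ((theta (2 * N + 1) l * (((x i : ℤ) - (y i : ℤ) : ℤ) : ℝ) : ℝ) : ℂ)))
  rw [Fintype.piFinset_univ] at h2
  rw [← h2]
  have hcoord : ∀ i, |((x i : ℤ) - (y i : ℤ))| < ((2 * N + 1 : ℕ) : ℤ) := by
    intro i
    have hx := Finset.mem_Icc.1 (x i).2
    have hy := Finset.mem_Icc.1 (y i).2
    rw [abs_lt]
    push_cast
    constructor <;> omega
  have h3 : ∀ i, ∑ l : Fin (2 * N + 1), Complex.exp (Complex.I *
        ((theta (2 * N + 1) l * (((x i : ℤ) - (y i : ℤ) : ℤ) : ℝ) : ℝ) : ℂ))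
      = if (x i : ℤ) - (y i : ℤ) = 0 then ((2 * N + 1 : ℕ) : ℂ) else 0 := by
    intro i
    exact sum_exp_theta (2 * N + 1) (by omega) _ (hcoord i)
  rw [Finset.prod_congr rfl (fun i _ => h3 i)]
  split_ifs with hxy
  · subst hxy
    simp only [sub_self, if_true, Finset.prod_const, Finset.card_univ, Fintype.card_fin]
    have hcard : Fintype.card (Site N) = (2 * N + 1) ^ 3 := by
      simp only [Site, Fintype.card_pi, Fintype.card_coe, Int.card_Icc]
      simp only [Finset.prod_const, Finset.card_univ, Fintype.card_fin]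
      congr 1
      omega
    rw [hcard]
    norm_cast
  · have : ∃ i, (x i : ℤ) - (y i : ℤ) ≠ 0 := by
      by_contra hcon
      push Not at hcon
      apply hxy
      ext i
      have := hcon i
      omega
    obtain ⟨i, hi⟩ := this
    rw [Finset.prod_eq_zero (Finset.mem_univ i)]
    · simp
    · rw [if_neg hi]

theorem card_Site (N : ℕ) : Fintype.card (Site N) = (2 * N + 1) ^ 3 := by
  simp only [Site, Fintype.card_pi, Fintype.card_coe, Int.card_Icc]
  simp only [Finset.prod_const, Finset.card_univ, Fintype.card_fin]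
  congr 1
  omega

/-- Coupling of nearest neighbours. -/
noncomputable def Jnn {N : ℕ} (x y : Site N) : ℝ :=
  if ∑ i, |(x i : ℤ) - (y i : ℤ)| = 1 then 1 else 0

theorem Jnn_self {N : ℕ} (x : Site N) : Jnn x x = 0 := by
  unfold Jnn; simp

theorem Jnn_nonneg {N : ℕ} (x y : Site N) : 0 ≤ Jnn x y := by
  unfold Jnn; split_ifs <;> norm_num

/-- `∑_i 2 (1 - cos k_i)`. -/
noncomputable def en {N : ℕ} (k : Fin 3 → Fin (2 * N + 1)) : ℝ :=
  ∑ i, 2 * (1 - Real.cos (theta (2 * N + 1) (k i)))

theorem en_nonneg {N : ℕ} (k : Fin 3 → Fin (2 * N + 1)) : 0 ≤ en k := by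
  unfold en
  apply Finset.sum_nonneg
  intro i _
  have := Real.cos_le_one (theta (2 * N + 1) (k i))
  linarith

theorem neighbour_sum {N : ℕ} (k : Fin 3 → Fin (2 * N + 1)) (x : Site N) :
    ∑ y, Jnn x y * (2 * (1 - Real.cos (phase k x - phase k y))) ≤ 2 * en k := by
  -- indicator of `y = x + s e_j`
  let P : Fin 3 → ℤ → Site N → Prop := fun j s y =>
    ∀ i, (y i : ℤ) = (x i : ℤ) + s * (if i = j then 1 else 0)
  have hcos : ∀ j s y, (s = 1 ∨ s = -1) → P j s y →
      Real.cos (phase k x - phase k y) = Real.cos (theta (2 * N + 1) (k j)) := by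
    intro j s y hs hP
    have h1 : phase k x - phase k y = - (s : ℝ) * theta (2 * N + 1) (k j) := by
      unfold phase
      rw [← Finset.sum_sub_distrib]
      have : ∀ i, theta (2 * N + 1) (k i) * ((x i : ℤ) : ℝ) - theta (2 * N + 1) (k i) * ((y i : ℤ) : ℝ)
          = if i = j then - (s : ℝ) * theta (2 * N + 1) (k j) else 0 := by
        intro i
        rw [hP i]
        split_ifs with hij
        · subst hij; push_cast; ring
        · push_cast; ring
      rw [Finset.sum_congr rfl (fun i _ => this i), Finset.sum_ite_eq']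
      simp
    rw [h1]
    rcases hs with rfl | rfl
    · push_cast; rw [neg_mul, one_mul, Real.cos_neg]
    · push_cast; rw [neg_neg, one_mul]
  have hdec : ∀ y, Jnn x y ≠ 0 → ∃ j, P j 1 y ∨ P j (-1) y := by
    intro y hy
    have h1 : ∑ i, |(x i : ℤ) - (y i : ℤ)| = 1 := by
      by_contra hcon
      apply hy
      unfold Jnn
      rw [if_neg hcon]
    rw [Fin.sum_univ_three] at h1
    have a0 := abs_nonneg ((x 0 : ℤ) - (y 0 : ℤ))
    have a1 := abs_nonneg ((x 1 : ℤ) - (y 1 : ℤ))
    have a2 := abs_nonneg ((x 2 : ℤ) - (y 2 : ℤ))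
    have hcase : (|(x 0 : ℤ) - (y 0 : ℤ)| = 1 ∧ (x 1 : ℤ) = y 1 ∧ (x 2 : ℤ) = y 2) ∨
        (|(x 1 : ℤ) - (y 1 : ℤ)| = 1 ∧ (x 0 : ℤ) = y 0 ∧ (x 2 : ℤ) = y 2) ∨
        (|(x 2 : ℤ) - (y 2 : ℤ)| = 1 ∧ (x 0 : ℤ) = y 0 ∧ (x 1 : ℤ) = y 1) := by
      have z : ∀ a : ℤ, |a| = 0 → a = 0 := fun a => abs_eq_zero.1
      rcases (by omega : |(x 0 : ℤ) - (y 0 : ℤ)| = 1 ∧ |(x 1 : ℤ) - (y 1 : ℤ)| = 0 ∧
          |(x 2 : ℤ) - (y 2 : ℤ)| = 0 ∨ |(x 1 : ℤ) - (y 1 : ℤ)| = 1 ∧
          |(x 0 : ℤ) - (y 0 : ℤ)| = 0 ∧ |(x 2 : ℤ) - (y 2 : ℤ)| = 0 ∨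
          |(x 2 : ℤ) - (y 2 : ℤ)| = 1 ∧ |(x 0 : ℤ) - (y 0 : ℤ)| = 0 ∧
          |(x 1 : ℤ) - (y 1 : ℤ)| = 0) with h | h | h
      · left; exact ⟨h.1, by have := z _ h.2.1; omega, by have := z _ h.2.2; omega⟩
      · right; left; exact ⟨h.1, by have := z _ h.2.1; omega, by have := z _ h.2.2; omega⟩
      · right; right; exact ⟨h.1, by have := z _ h.2.1; omega, by have := z _ h.2.2; omega⟩
    have hmk : ∀ (j : Fin 3) (s : ℤ),
        ((y 0 : ℤ) = (x 0 : ℤ) + s * (if (0 : Fin 3) = j then 1 else 0)) →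
        ((y 1 : ℤ) = (x 1 : ℤ) + s * (if (1 : Fin 3) = j then 1 else 0)) →
        ((y 2 : ℤ) = (x 2 : ℤ) + s * (if (2 : Fin 3) = j then 1 else 0)) → P j s y := by
      intro j s h0 h1 h2 i
      fin_cases i
      exacts [h0, h1, h2]
    rcases hcase with ⟨h, h', h''⟩ | ⟨h, h', h''⟩ | ⟨h, h', h''⟩
    · refine ⟨0, ?_⟩
      rcases (abs_eq (by norm_num : (0:ℤ) ≤ 1)).1 h with h2 | h2
      · right
        apply hmk
        · rw [if_pos rfl]; omega
        · rw [if_neg (by decide)]; omega
        · rw [if_neg (by decide)]; omega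
      · left
        apply hmk
        · rw [if_pos rfl]; omega
        · rw [if_neg (by decide)]; omega
        · rw [if_neg (by decide)]; omega
    · refine ⟨1, ?_⟩
      rcases (abs_eq (by norm_num : (0:ℤ) ≤ 1)).1 h with h2 | h2
      · right
        apply hmk
        · rw [if_neg (by decide)]; omega
        · rw [if_pos rfl]; omega
        · rw [if_neg (by decide)]; omega
      · left
        apply hmk
        · rw [if_neg (by decide)]; omega
        · rw [if_pos rfl]; omega
        · rw [if_neg (by decide)]; omega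
    · refine ⟨2, ?_⟩
      rcases (abs_eq (by norm_num : (0:ℤ) ≤ 1)).1 h with h2 | h2
      · right
        apply hmk
        · rw [if_neg (by decide)]; omega
        · rw [if_neg (by decide)]; omega
        · rw [if_pos rfl]; omega
      · left
        apply hmk
        · rw [if_neg (by decide)]; omega
        · rw [if_neg (by decide)]; omega
        · rw [if_pos rfl]; omega
  classical
  have hle : ∀ y, Jnn x y * (2 * (1 - Real.cos (phase k x - phase k y))) ≤
      ∑ j, ((if P j 1 y then 2 * (1 - Real.cos (theta (2 * N + 1) (k j))) else 0)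
        + (if P j (-1) y then 2 * (1 - Real.cos (theta (2 * N + 1) (k j))) else 0)) := by
    intro y
    have hnn : ∀ j, 0 ≤ 2 * (1 - Real.cos (theta (2 * N + 1) (k j))) := by
      intro j
      have := Real.cos_le_one (theta (2 * N + 1) (k j))
      linarith
    have hterm : ∀ j, 0 ≤ ((if P j 1 y then 2 * (1 - Real.cos (theta (2 * N + 1) (k j))) else 0)
        + (if P j (-1) y then 2 * (1 - Real.cos (theta (2 * N + 1) (k j))) else 0)) := by
      intro j
      apply add_nonneg
      · split_ifs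
        · exact hnn j
        · exact le_rfl
      · split_ifs
        · exact hnn j
        · exact le_rfl
    by_cases hy : Jnn x y = 0
    · rw [hy, zero_mul]
      exact Finset.sum_nonneg (fun j _ => hterm j)
    · obtain ⟨j, hj⟩ := hdec y hy
      have hJ1 : Jnn x y = 1 := by
        unfold Jnn at hy ⊢
        split_ifs with h
        · rfl
        · rw [if_neg h] at hy; exact absurd rfl hy
      rw [hJ1, one_mul]
      refine le_trans ?_ (Finset.single_le_sum (fun j _ => hterm j) (Finset.mem_univ j))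
      rcases hj with hj | hj
      · rw [hcos j 1 y (Or.inl rfl) hj, if_pos hj]
        have : 0 ≤ (if P j (-1) y then 2 * (1 - Real.cos (theta (2 * N + 1) (k j))) else 0) := by
          split_ifs
          · exact hnn j
          · exact le_rfl
        linarith
      · rw [hcos j (-1) y (Or.inr rfl) hj, if_pos hj]
        have : 0 ≤ (if P j 1 y then 2 * (1 - Real.cos (theta (2 * N + 1) (k j))) else 0) := by
          split_ifs
          · exact hnn j
          · exact le_rfl
        linarith
  have hone : ∀ (j : Fin 3) (s : ℤ) (c : ℝ), 0 ≤ c → ∑ y, (if P j s y then c else 0) ≤ c := by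
    intro j s c hc
    by_cases hex : ∃ y, P j s y
    · obtain ⟨y0, hy0⟩ := hex
      have : ∀ y, (if P j s y then c else 0) = if y = y0 then c else 0 := by
        intro y
        have : P j s y ↔ y = y0 := by
          constructor
          · intro h
            ext i
            rw [h i, hy0 i]
          · rintro rfl; exact hy0
        simp only [this]
      rw [Finset.sum_congr rfl (fun y _ => this y), Finset.sum_ite_eq']
      simp
    · push Not at hex
      rw [Finset.sum_eq_zero]
      · exact hc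
      · intro y _
        rw [if_neg (hex y)]
  calc ∑ y, Jnn x y * (2 * (1 - Real.cos (phase k x - phase k y)))
      ≤ ∑ y, ∑ j, ((if P j 1 y then 2 * (1 - Real.cos (theta (2 * N + 1) (k j))) else 0)
        + (if P j (-1) y then 2 * (1 - Real.cos (theta (2 * N + 1) (k j))) else 0)) :=
        Finset.sum_le_sum (fun y _ => hle y)
    _ = ∑ j, ∑ y, ((if P j 1 y then 2 * (1 - Real.cos (theta (2 * N + 1) (k j))) else 0)
        + (if P j (-1) y then 2 * (1 - Real.cos (theta (2 * N + 1) (k j))) else 0)) :=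
        Finset.sum_comm
    _ ≤ ∑ j, (2 * (1 - Real.cos (theta (2 * N + 1) (k j)))
          + 2 * (1 - Real.cos (theta (2 * N + 1) (k j)))) := by
        apply Finset.sum_le_sum
        intro j _
        rw [Finset.sum_add_distrib]
        have : 0 ≤ 2 * (1 - Real.cos (theta (2 * N + 1) (k j))) := by
          have := Real.cos_le_one (theta (2 * N + 1) (k j))
          linarith
        exact add_le_add (hone j 1 _ this) (hone j (-1) _ this)
    _ = 2 * en k := by
        unfold en
        rw [Finset.sum_add_distrib]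
        ring

end Vale.Agent.P361
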