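import Mathlib
import Vale.Agent.P361.Thermo
import Vale.Agent.P361.Waves

/-!
The finite-volume inequality.
-/

namespace Vale.Agent.P361

open Matrix NormedSpace

theorem cm_wave_K {V : Type*} [Fintype V] [DecidableEq V] {n : ℕ} (f : V → ℝ)
    (J : V → V → ℝ) (β h : ℝ) :
    cm (cm (wave n f) (Kmat n J β h)) (wave n f)ᴴ
      = (β : ℂ) • (cm (cm (wave n f) (ham n J)) (wave n f)ᴴ
          + (h : ℂ) • cm (wave n f) (wave n f)ᴴ) := by
  unfold Kmat
  rw [cm_smul, cm_sub, cm_smul, lie_wave_magn, smul_neg, sub_neg_eq_add, smul_cm, add_cm, smul_cm]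

theorem wave_ineq {V : Type*} [Fintype V] [DecidableEq V] {n : ℕ} (f : V → ℝ)
    (J : V → V → ℝ) (hJ : ∀ x, J x x = 0) (hJ0 : ∀ x y, 0 ≤ J x y)
    (β h : ℝ) (hβ : 0 ≤ β) (y0 : ℝ) (hy0 : 0 < y0) :
    coefA y0 * (∑ x, 2 * f x ^ 2 * ev (Kmat n J β h) (siteOp x (S3 n)))
      - coefB y0 / 2 * (β * ((∑ x, ∑ y, J x y * (f x - f y) ^ 2)
          * (((n : ℝ) / 2) ^ 2 * ev (Kmat n J β h) 1)
        + h * (∑ x, 2 * f x ^ 2 * ev (Kmat n J β h) (siteOp x (S3 n))))) ≤
    ∑ x, ∑ y, f x * f y * ev (Kmat n J β h)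
      (siteOp x (Sp n) * siteOp y (Sm n) + siteOp y (Sm n) * siteOp x (Sp n)) := by
  set K := Kmat n J β h with hKdef
  have hK : K.IsHermitian := Kmat_isHermitian J hJ β h
  have h1 := ev_core K (wave n f) hK y0 hy0
  rw [cm_wave_K, ev_smul, ev_add, ev_smul, lie_wave_wave, ev_sum, anticomm_wave, ev_sum] at h1
  simp only [ev_sum, ev_smul] at h1
  have h2 := ev_double K hK f J hJ hJ0
  have hB : 0 ≤ coefB y0 / 2 := by unfold coefB; positivity
  have h3 : coefB y0 / 2 * (β * (ev K (cm (cm (wave n f) (ham n J)) (wave n f)ᴴ)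
      + h * ∑ x, 2 * f x ^ 2 * ev K (siteOp x (S3 n)))) ≤
      coefB y0 / 2 * (β * ((∑ x, ∑ y, J x y * (f x - f y) ^ 2)
          * (((n : ℝ) / 2) ^ 2 * ev K 1)
        + h * (∑ x, 2 * f x ^ 2 * ev K (siteOp x (S3 n))))) := by
    apply mul_le_mul_of_nonneg_left _ hB
    apply mul_le_mul_of_nonneg_left _ hβ
    linarith
  linarith

theorem combine_aux (A B β h q X1 X2 Y1 Y2 W1 W2 M2 T : ℝ) (hB : 0 ≤ B) (hβ : 0 ≤ β)
    (hq : 0 ≤ q) (hc : A * X1 - B * (β * (Y1 * q + h * X1)) ≤ W1)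
    (hs : A * X2 - B * (β * (Y2 * q + h * X2)) ≤ W2) (e1 : X1 + X2 = M2) (e2 : Y1 + Y2 ≤ T) :
    A * M2 - B * (β * (T * q + h * M2)) ≤ W1 + W2 := by
  have h1 : B * (β * ((Y1 + Y2) * q + h * M2)) ≤ B * (β * (T * q + h * M2)) := by
    apply mul_le_mul_of_nonneg_left _ hB
    apply mul_le_mul_of_nonneg_left _ hβ
    exact add_le_add (mul_le_mul_of_nonneg_right e2 hq) le_rfl
  subst e1
  have h2 : B * (β * ((Y1 + Y2) * q + h * (X1 + X2)))
      = B * (β * (Y1 * q + h * X1)) + B * (β * (Y2 * q + h * X2)) := by ring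
  have h3 : A * (X1 + X2) = A * X1 + A * X2 := by ring
  linarith

theorem exchange_sum {N : ℕ} (W : Site N → Site N → ℝ) :
    ∑ k : Fin 3 → Fin (2 * N + 1), ∑ x : Site N, ∑ z : Site N,
      Real.cos (phase k x - phase k z) * W x z
      = (Fintype.card (Site N) : ℝ) * ∑ x : Site N, W x x := by
  rw [Finset.sum_comm, Finset.mul_sum]
  apply Finset.sum_congr rfl
  intro x _
  rw [Finset.sum_comm]
  have : ∀ z : Site N, ∑ k : Fin 3 → Fin (2 * N + 1), Real.cos (phase k x - phase k z) * W x z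
      = if x = z then (Fintype.card (Site N) : ℝ) * W x z else 0 := by
    intro z
    rw [← Finset.sum_mul, sum_cos_phase]
    by_cases hxz : x = z
    · rw [if_pos hxz, if_pos hxz]
    · rw [if_neg hxz, if_neg hxz, zero_mul]
  rw [Finset.sum_congr rfl (fun z _ => this z), Finset.sum_ite_eq, if_pos (Finset.mem_univ x)]

theorem cossin_W {N : ℕ} (W : Site N → Site N → ℝ) (k : Fin 3 → Fin (2 * N + 1)) :
    (∑ x : Site N, ∑ z : Site N, Real.cos (phase k x) * Real.cos (phase k z) * W x z)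
        + (∑ x : Site N, ∑ z : Site N, Real.sin (phase k x) * Real.sin (phase k z) * W x z)
        = ∑ x : Site N, ∑ z : Site N, Real.cos (phase k x - phase k z) * W x z := by
  rw [← Finset.sum_add_distrib]
  apply Finset.sum_congr rfl
  intro x _
  rw [← Finset.sum_add_distrib]
  apply Finset.sum_congr rfl
  intro z _
  rw [Real.cos_sub]
  ring

theorem cossin_w {N : ℕ} (w : Site N → ℝ) (k : Fin 3 → Fin (2 * N + 1)) :
    (∑ x : Site N, 2 * Real.cos (phase k x) ^ 2 * w x)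
        + (∑ x : Site N, 2 * Real.sin (phase k x) ^ 2 * w x)
        = 2 * ∑ x, w x := by
  rw [Finset.mul_sum, ← Finset.sum_add_distrib]
  apply Finset.sum_congr rfl
  intro x _
  have := Real.cos_sq_add_sin_sq (phase k x)
  calc _ = 2 * (Real.cos (phase k x) ^ 2 + Real.sin (phase k x) ^ 2) * w x := by ring
    _ = _ := by rw [this]; ring

theorem cossin_J {N : ℕ} (k : Fin 3 → Fin (2 * N + 1)) :
    (∑ x : Site N, ∑ z : Site N, Jnn x z
          * (Real.cos (phase k x) - Real.cos (phase k z)) ^ 2)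
        + (∑ x : Site N, ∑ z : Site N, Jnn x z
          * (Real.sin (phase k x) - Real.sin (phase k z)) ^ 2)
        ≤ (Fintype.card (Site N) : ℝ) * (2 * en k) := by
  rw [← Finset.sum_add_distrib]
  have : ∀ x : Site N, (∑ z : Site N, Jnn x z
      * (Real.cos (phase k x) - Real.cos (phase k z)) ^ 2)
      + (∑ z : Site N, Jnn x z
      * (Real.sin (phase k x) - Real.sin (phase k z)) ^ 2) ≤ 2 * en k := by
    intro x
    rw [← Finset.sum_add_distrib]
    refine le_trans (le_of_eq ?_) (neighbour_sum k x)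
    apply Finset.sum_congr rfl
    intro z _
    rw [Real.cos_sub]
    have h1 := Real.cos_sq_add_sin_sq (phase k x)
    have h2 := Real.cos_sq_add_sin_sq (phase k z)
    linear_combination (Jnn x z) * h1 + (Jnn x z) * h2
  calc _ ≤ ∑ _x : Site N, 2 * en k := Finset.sum_le_sum (fun x _ => this x)
    _ = _ := by rw [Finset.sum_const, Finset.card_univ, nsmul_eq_mul]

theorem finite_ineq (n N : ℕ) (β h : ℝ) (hβ : 0 ≤ β)
    (y : (Fin 3 → Fin (2 * N + 1)) → ℝ) (hy : ∀ k, 0 < y k) :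
    ∑ k, (coefA (y k) * (2 * ev (Kmat n (Jnn (N := N)) β h) (magn (Site N) n))
      - coefB (y k) / 2 * (β * ((Fintype.card (Site N) : ℝ) * (2 * en k)
          * (((n : ℝ) / 2) ^ 2 * ev (Kmat n (Jnn (N := N)) β h) 1)
        + h * (2 * ev (Kmat n (Jnn (N := N)) β h) (magn (Site N) n))))) ≤
    (Fintype.card (Site N) : ℝ) * ((Fintype.card (Site N) : ℝ)
        * ((n : ℝ) * ev (Kmat n (Jnn (N := N)) β h) 1)
      + 2 * ((n : ℝ) - 1) * ((Fintype.card (Site N) : ℝ)
        * ((n : ℝ) / 2 * ev (Kmat n (Jnn (N := N)) β h) 1)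
          - ev (Kmat n (Jnn (N := N)) β h) (magn (Site N) n))) := by
  set K := Kmat n (Jnn (N := N)) β h with hKdef
  have hK : K.IsHermitian := Kmat_isHermitian Jnn Jnn_self β h
  have hZ : 0 < ev K 1 := ev_one_pos K hK
  have hM : ev K (magn (Site N) n) = ∑ x, ev K (siteOp x (S3 n)) := by
    unfold magn; rw [ev_sum]
  set W : Site N → Site N → ℝ := fun x y => ev K
      (siteOp x (Sp n) * siteOp y (Sm n) + siteOp y (Sm n) * siteOp x (Sp n)) with hW
  have hstep : ∀ k, (coefA (y k) * (2 * ev K (magn (Site N) n))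
      - coefB (y k) / 2 * (β * ((Fintype.card (Site N) : ℝ) * (2 * en k)
          * (((n : ℝ) / 2) ^ 2 * ev K 1)
        + h * (2 * ev K (magn (Site N) n))))) ≤
      ∑ x, ∑ z, Real.cos (phase k x - phase k z) * W x z := by
    intro k
    have hc := wave_ineq (n := n) (fun x : Site N => Real.cos (phase k x)) Jnn Jnn_self Jnn_nonneg
      β h hβ (y k) (hy k)
    have hs := wave_ineq (n := n) (fun x : Site N => Real.sin (phase k x)) Jnn Jnn_self Jnn_nonneg
      β h hβ (y k) (hy k)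
    rw [← hKdef] at hc hs
    have e1 := cossin_w (fun x => ev K (siteOp x (S3 n))) k
    rw [← hM] at e1
    have e2 := cossin_J k
    rw [← cossin_W W k]
    have hB : 0 ≤ coefB (y k) / 2 := by unfold coefB; positivity
    have hq : 0 ≤ ((n : ℝ) / 2) ^ 2 * ev K 1 := by positivity
    exact combine_aux _ _ _ _ _ _ _ _ _ _ _ _ _ hB hβ hq hc hs e1 e2
  refine le_trans (Finset.sum_le_sum (fun k _ => hstep k)) ?_
  rw [exchange_sum]
  refine mul_le_mul_of_nonneg_left ?_ (Nat.cast_nonneg _)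
  have h6 : ∀ x : Site N, W x x ≤ (n : ℝ) * ev K 1 + 2 * ((n : ℝ) - 1)
      * ((n : ℝ) / 2 * ev K 1 - ev K (siteOp x (S3 n))) := fun x => ev_site_le K hK x
  refine le_trans (Finset.sum_le_sum (fun x _ => h6 x)) (le_of_eq ?_)
  rw [hM, Finset.sum_add_distrib, ← Finset.mul_sum, ← Finset.mul_sum, Finset.sum_sub_distrib]
  simp only [Finset.sum_const, Finset.card_univ, nsmul_eq_mul]
  ring

end Vale.Agent.P361
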