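import Mathlib
import Vale.Agent.P361.Thermo

/-!
Klein's inequality and the Peierls-Bogoliubov inequality.
-/

namespace Vale.Agent.P361

open Matrix NormedSpace

section general

variable {ι : Type*} [Fintype ι] [DecidableEq ι]

theorem normSq_mul_conj (z : ℂ) : z * star z = ((Complex.normSq z : ℝ) : ℂ) :=
  Complex.mul_conj z

/-- Klein's inequality for the exponential function. -/
theorem klein (K K' : Matrix ι ι ℂ) (hK : K.IsHermitian) (hK' : K'.IsHermitian) :
    ev K 1 - ev K (K' - K) ≤ ev K' 1 := by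
  obtain ⟨U, E, hU1, hU2, hKd, hexp⟩ := exists_diag K hK
  obtain ⟨U', E', hU1', hU2', hKd', hexp'⟩ := exists_diag K' hK'
  set W : Matrix ι ι ℂ := Uᴴ * U' with hW
  have hWs : Wᴴ = U'ᴴ * U := by rw [hW]; simp [conjTranspose_mul]
  have hWW : W * Wᴴ = 1 := by
    rw [hWs, hW]
    calc Uᴴ * U' * (U'ᴴ * U) = Uᴴ * (U' * U'ᴴ) * U := by simp only [Matrix.mul_assoc]
      _ = 1 := by rw [hU1']; simp [hU2]
  have hWW' : Wᴴ * W = 1 := by
    rw [hWs, hW]
    calc U'ᴴ * U * (Uᴴ * U') = U'ᴴ * (U * Uᴴ) * U' := by simp only [Matrix.mul_assoc]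
      _ = 1 := by rw [hU1]; simp [hU2']
  have hrow : ∀ i, ∑ j, Complex.normSq (W i j) = 1 := by
    intro i
    have h := congrFun (congrFun hWW i) i
    rw [Matrix.mul_apply, Matrix.one_apply_eq] at h
    have h2 : ∀ j, W i j * Wᴴ j i = ((Complex.normSq (W i j) : ℝ) : ℂ) := by
      intro j; rw [conjTranspose_apply, normSq_mul_conj]
    rw [Finset.sum_congr rfl (fun j _ => h2 j), ← Complex.ofReal_sum] at h
    exact_mod_cast h
  have hcol : ∀ j, ∑ i, Complex.normSq (W i j) = 1 := by
    intro j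
    have h := congrFun (congrFun hWW' j) j
    rw [Matrix.mul_apply, Matrix.one_apply_eq] at h
    have h2 : ∀ i, Wᴴ j i * W i j = ((Complex.normSq (W i j) : ℝ) : ℂ) := by
      intro i; rw [conjTranspose_apply, mul_comm, normSq_mul_conj]
    rw [Finset.sum_congr rfl (fun i _ => h2 i), ← Complex.ofReal_sum] at h
    exact_mod_cast h
  have z1 : ev K 1 = ∑ i, ∑ j, Complex.normSq (W i j) * Real.exp (-E i) := by
    unfold ev
    rw [hexp, trace_conj_diag, Complex.re_sum]
    apply Finset.sum_congr rfl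
    intro i _
    rw [Matrix.mul_one, hU2, Matrix.one_apply_eq, one_mul, Complex.ofReal_re, ← Finset.sum_mul,
      hrow i, one_mul]
  have z2 : ev K' 1 = ∑ i, ∑ j, Complex.normSq (W i j) * Real.exp (-E' j) := by
    unfold ev
    rw [hexp', trace_conj_diag, Complex.re_sum, Finset.sum_comm]
    apply Finset.sum_congr rfl
    intro i _
    rw [Matrix.mul_one, hU2', Matrix.one_apply_eq, one_mul, Complex.ofReal_re, ← Finset.sum_mul,
      hcol i, one_mul]
  have z3 : ev K K = ∑ i, ∑ j, Complex.normSq (W i j) * (E i * Real.exp (-E i)) := by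
    unfold ev
    rw [hexp, trace_conj_diag, Complex.re_sum]
    apply Finset.sum_congr rfl
    intro i _
    have h1 : Uᴴ * K * U = diagonal (fun i => (E i : ℂ)) := by
      rw [hKd]
      calc Uᴴ * (U * diagonal (fun i => (E i : ℂ)) * Uᴴ) * U
          = (Uᴴ * U) * diagonal (fun i => (E i : ℂ)) * (Uᴴ * U) := by simp [Matrix.mul_assoc]
        _ = _ := by rw [hU2]; simp
    rw [h1, diagonal_apply_eq, ← Complex.ofReal_mul, Complex.ofReal_re, ← Finset.sum_mul,
      hrow i, one_mul]
  have z4 : ev K K' = ∑ i, ∑ j, Complex.normSq (W i j) * (E' j * Real.exp (-E i)) := by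
    unfold ev
    rw [hexp, trace_conj_diag, Complex.re_sum]
    apply Finset.sum_congr rfl
    intro i _
    have h1 : Uᴴ * K' * U = W * diagonal (fun i => (E' i : ℂ)) * Wᴴ := by
      rw [hKd', hWs, hW]
      simp only [Matrix.mul_assoc]
    have h2 : (W * diagonal (fun i => (E' i : ℂ)) * Wᴴ) i i
        = ((∑ j, Complex.normSq (W i j) * E' j : ℝ) : ℂ) := by
      rw [Matrix.mul_apply, Complex.ofReal_sum]
      apply Finset.sum_congr rfl
      intro j _
      rw [mul_diagonal, conjTranspose_apply, Complex.ofReal_mul, ← normSq_mul_conj]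
      ring
    rw [h1, h2, ← Complex.ofReal_mul, Complex.ofReal_re, Finset.sum_mul]
    apply Finset.sum_congr rfl
    intro j _
    ring
  rw [ev_sub, z1, z2, z3, z4, ← Finset.sum_sub_distrib, ← Finset.sum_sub_distrib]
  apply Finset.sum_le_sum
  intro i _
  rw [← Finset.sum_sub_distrib, ← Finset.sum_sub_distrib]
  apply Finset.sum_le_sum
  intro j _
  have h1 : Real.exp (-E i) * (1 - (E' j - E i)) ≤ Real.exp (-E' j) := by
    have h2 : Real.exp (-E' j) = Real.exp (-E i) * Real.exp (-(E' j - E i)) := by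
      rw [← Real.exp_add]; ring_nf
    rw [h2]
    apply mul_le_mul_of_nonneg_left _ (Real.exp_pos _).le
    have := Real.add_one_le_exp (-(E' j - E i))
    linarith
  have h3 : 0 ≤ Complex.normSq (W i j) := Complex.normSq_nonneg _
  nlinarith [mul_le_mul_of_nonneg_left h1 h3]

/-- shift by a constant -/
theorem ev_shift (K : Matrix ι ι ℂ) (c : ℝ) :
    ev (K + (c : ℂ) • 1) 1 = Real.exp (-c) * ev K 1 := by
  unfold ev
  rw [Matrix.one_mul, Matrix.one_mul, neg_add]
  have hcomm : Commute (-K) (-((c : ℂ) • (1 : Matrix ι ι ℂ))) := by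
    apply Commute.neg_left
    apply Commute.neg_right
    apply Commute.smul_right
    exact Commute.one_right _
  rw [Matrix.exp_add_of_commute _ _ hcomm]
  have h1 : -((c : ℂ) • (1 : Matrix ι ι ℂ)) = diagonal (fun _ => ((-c : ℝ) : ℂ)) := by
    rw [← diagonal_one, ← diagonal_smul, diagonal_neg]
    congr 1
    ext i
    simp
  rw [h1, Matrix.exp_diagonal]
  have h2 : (exp (fun _ : ι => ((-c : ℝ) : ℂ))) = fun _ => ((Real.exp (-c) : ℝ) : ℂ) := by
    ext i
    rw [Pi.coe_exp, ← Complex.exp_eq_exp_ℂ, Complex.ofReal_exp]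
  rw [h2]
  have h3 : (diagonal (fun _ : ι => ((Real.exp (-c) : ℝ) : ℂ))) = ((Real.exp (-c) : ℝ) : ℂ) • 1 := by
    rw [← diagonal_one, ← diagonal_smul]
    congr 1
    ext i
    simp
  rw [h3, mul_smul_comm, mul_one, trace_smul, smul_eq_mul, Complex.re_ofReal_mul]

/-- The Peierls-Bogoliubov inequality. -/
theorem peierls [Nonempty ι] (K K' : Matrix ι ι ℂ) (hK : K.IsHermitian) (hK' : K'.IsHermitian) :
    Real.log (ev K 1) - ev K (K' - K) / ev K 1 ≤ Real.log (ev K' 1) := by
  have hZ : 0 < ev K 1 := ev_one_pos K hK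
  have hZ' : 0 < ev K' 1 := ev_one_pos K' hK'
  set c : ℝ := - (ev K (K' - K) / ev K 1) with hc
  have hK'' : (K' + (c : ℂ) • (1 : Matrix ι ι ℂ)).IsHermitian := by
    unfold IsHermitian
    rw [conjTranspose_add, conjTranspose_smul, hK'.eq, conjTranspose_one]
    simp
  have h := klein K (K' + (c : ℂ) • 1) hK hK''
  rw [ev_shift] at h
  have e1 : ev K (K' + (c : ℂ) • 1 - K) = ev K (K' - K) + c * ev K 1 := by
    rw [← ev_smul, ← ev_add]
    congr 1
    abel
  rw [e1] at h
  have e2 : c * ev K 1 = - ev K (K' - K) := by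
    rw [hc]; field_simp
  rw [e2] at h
  have h2 : ev K 1 ≤ Real.exp (-c) * ev K' 1 := by linarith
  have h3 := Real.log_le_log hZ h2
  rw [Real.log_mul (Real.exp_pos _).ne' hZ'.ne', Real.log_exp] at h3
  rw [hc] at h3
  linarith

end general

end Vale.Agent.P361
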