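import Mathlib
import Vale.Agent.P361.Klein

/-!
Partition functions on general finite sets of sites: relabelling, disjoint unions, change of
couplings.
-/

namespace Vale.Agent.P361

open Matrix NormedSpace
open scoped Kronecker

set_option backward.isDefEq.respectTransparency false in
theorem matrix_map_exp {ι κ : Type*} [Fintype ι] [DecidableEq ι] [Fintype κ] [DecidableEq κ]
    (f : Matrix ι ι ℂ →ₐ[ℂ] Matrix κ κ ℂ) (x : Matrix ι ι ℂ) : f (exp x) = exp (f x) :=
  open scoped Norms.Operator in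
  NormedSpace.map_exp f f.toLinearMap.continuous_of_finiteDimensional x

/-- `A ↦ A ⊗ 1` -/
def kronL (ι κ : Type*) [Fintype ι] [DecidableEq ι] [Fintype κ] [DecidableEq κ] :
    Matrix ι ι ℂ →ₐ[ℂ] Matrix (ι × κ) (ι × κ) ℂ :=
  AlgHom.ofLinearMap
    { toFun := fun A => A ⊗ₖ (1 : Matrix κ κ ℂ)
      map_add' := fun A B => add_kronecker A B 1
      map_smul' := fun c A => by simp [smul_kronecker] }
    (by simp)
    (fun A B => by
      show (A * B) ⊗ₖ (1 : Matrix κ κ ℂ) = (A ⊗ₖ 1) * (B ⊗ₖ 1)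
      rw [← mul_kronecker_mul, Matrix.one_mul])

/-- `A ↦ 1 ⊗ A` -/
def kronR (ι κ : Type*) [Fintype ι] [DecidableEq ι] [Fintype κ] [DecidableEq κ] :
    Matrix κ κ ℂ →ₐ[ℂ] Matrix (ι × κ) (ι × κ) ℂ :=
  AlgHom.ofLinearMap
    { toFun := fun A => (1 : Matrix ι ι ℂ) ⊗ₖ A
      map_add' := fun A B => kronecker_add 1 A B
      map_smul' := fun c A => by simp [kronecker_smul] }
    (by simp)
    (fun A B => by
      show (1 : Matrix ι ι ℂ) ⊗ₖ (A * B) = (1 ⊗ₖ A) * (1 ⊗ₖ B)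
      rw [← mul_kronecker_mul, Matrix.one_mul])

section sum

variable {V W : Type*} [Fintype V] [DecidableEq V] [Fintype W] [DecidableEq W] {n : ℕ}

/-- relabelling of configurations on a disjoint union -/
def cfgEquiv (V W : Type*) (n : ℕ) :
    (V → Fin (n + 1)) × (W → Fin (n + 1)) ≃ (V ⊕ W → Fin (n + 1)) :=
  (Equiv.sumArrowEquivProdArrow V W (Fin (n + 1))).symm

/-- Embedding of the operators on the left part. -/
def iL (V W : Type*) [Fintype V] [DecidableEq V] [Fintype W] [DecidableEq W] (n : ℕ) :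
    Matrix (V → Fin (n + 1)) (V → Fin (n + 1)) ℂ →ₐ[ℂ]
      Matrix (V ⊕ W → Fin (n + 1)) (V ⊕ W → Fin (n + 1)) ℂ :=
  (reindexAlgEquiv ℂ ℂ (cfgEquiv V W n)).toAlgHom.comp
    (kronL (V → Fin (n + 1)) (W → Fin (n + 1)))

/-- Embedding of the operators on the right part. -/
def iR (V W : Type*) [Fintype V] [DecidableEq V] [Fintype W] [DecidableEq W] (n : ℕ) :
    Matrix (W → Fin (n + 1)) (W → Fin (n + 1)) ℂ →ₐ[ℂ]
      Matrix (V ⊕ W → Fin (n + 1)) (V ⊕ W → Fin (n + 1)) ℂ :=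
  (reindexAlgEquiv ℂ ℂ (cfgEquiv V W n)).toAlgHom.comp
    (kronR (V → Fin (n + 1)) (W → Fin (n + 1)))

theorem iL_apply (A : Matrix (V → Fin (n + 1)) (V → Fin (n + 1)) ℂ)
    (σ τ : V ⊕ W → Fin (n + 1)) : iL V W n A σ τ =
      A (σ ∘ Sum.inl) (τ ∘ Sum.inl) * (1 : Matrix _ _ ℂ) (σ ∘ Sum.inr) (τ ∘ Sum.inr) := rfl

theorem iR_apply (A : Matrix (W → Fin (n + 1)) (W → Fin (n + 1)) ℂ)
    (σ τ : V ⊕ W → Fin (n + 1)) : iR V W n A σ τ =
      (1 : Matrix _ _ ℂ) (σ ∘ Sum.inl) (τ ∘ Sum.inl) * A (σ ∘ Sum.inr) (τ ∘ Sum.inr) := rfl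

theorem iL_siteOp (x : V) (A : Matrix (Fin (n + 1)) (Fin (n + 1)) ℂ) :
    iL V W n (siteOp x A) = siteOp (Sum.inl x) A := by
  ext σ τ
  rw [iL_apply]
  simp only [siteOp, Matrix.of_apply, Matrix.one_apply, Function.comp]
  by_cases h2 : σ ∘ Sum.inr = τ ∘ Sum.inr
  · rw [if_pos h2, mul_one]
    by_cases h1 : ∀ y, y ≠ x → σ (Sum.inl y) = τ (Sum.inl y)
    · rw [if_pos h1, if_pos]
      intro y hy
      rcases y with y | y
      · exact h1 y (fun h => hy (by rw [h]))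
      · exact congrFun h2 y
    · rw [if_neg h1, if_neg]
      intro h
      apply h1
      intro y hy
      exact h (Sum.inl y) (fun h' => hy (Sum.inl_injective h'))
  · rw [if_neg h2, mul_zero, if_neg]
    intro h
    apply h2
    ext y
    show ((σ (Sum.inr y) : Fin (n + 1)) : ℕ) = (τ (Sum.inr y) : Fin (n + 1))
    rw [h (Sum.inr y) (by simp)]

theorem iR_siteOp (x : W) (A : Matrix (Fin (n + 1)) (Fin (n + 1)) ℂ) :
    iR V W n (siteOp x A) = siteOp (Sum.inr x) A := by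
  ext σ τ
  rw [iR_apply]
  simp only [siteOp, Matrix.of_apply, Matrix.one_apply, Function.comp]
  by_cases h2 : σ ∘ Sum.inl = τ ∘ Sum.inl
  · rw [if_pos h2, one_mul]
    by_cases h1 : ∀ y, y ≠ x → σ (Sum.inr y) = τ (Sum.inr y)
    · rw [if_pos h1, if_pos]
      intro y hy
      rcases y with y | y
      · exact congrFun h2 y
      · exact h1 y (fun h => hy (by rw [h]))
    · rw [if_neg h1, if_neg]
      intro h
      apply h1
      intro y hy
      exact h (Sum.inr y) (fun h' => hy (Sum.inr_injective h'))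
  · rw [if_neg h2, zero_mul, if_neg]
    intro h
    apply h2
    ext y
    show ((σ (Sum.inl y) : Fin (n + 1)) : ℕ) = (τ (Sum.inl y) : Fin (n + 1))
    rw [h (Sum.inl y) (by simp)]

theorem iL_Qxy (x y : V) : iL V W n (Qxy n x y) = Qxy n (Sum.inl x) (Sum.inl y) := by
  unfold Qxy
  simp only [map_add, map_smul, map_mul, iL_siteOp]

theorem iR_Qxy (x y : W) : iR V W n (Qxy n x y) = Qxy n (Sum.inr x) (Sum.inr y) := by
  unfold Qxy
  simp only [map_add, map_smul, map_mul, iR_siteOp]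

/-- couplings on a disjoint union without interaction between the two parts -/
def sumJ (J : V → V → ℝ) (J' : W → W → ℝ) : V ⊕ W → V ⊕ W → ℝ
  | Sum.inl x, Sum.inl y => J x y
  | Sum.inr x, Sum.inr y => J' x y
  | Sum.inl _, Sum.inr _ => 0
  | Sum.inr _, Sum.inl _ => 0

theorem Kmat_sum (J : V → V → ℝ) (J' : W → W → ℝ) (β h : ℝ) :
    Kmat n (sumJ J J') β h = iL V W n (Kmat n J β h) + iR V W n (Kmat n J' β h) := by
  unfold Kmat ham magn
  simp only [map_smul, map_sub, map_neg, map_sum, iL_Qxy, iR_Qxy, iL_siteOp, iR_siteOp,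
    Fintype.sum_sum_type, sumJ, Complex.ofReal_zero, zero_smul, Finset.sum_const_zero, add_zero,
    zero_add, Finset.sum_add_distrib, smul_add, smul_sub, smul_neg]
  abel

theorem trace_iL_iR (A : Matrix (V → Fin (n + 1)) (V → Fin (n + 1)) ℂ)
    (B : Matrix (W → Fin (n + 1)) (W → Fin (n + 1)) ℂ) :
    trace (iL V W n A * iR V W n B) = trace A * trace B := by
  have h1 : iL V W n A * iR V W n B = (reindexAlgEquiv ℂ ℂ (cfgEquiv V W n))
      ((A ⊗ₖ (1 : Matrix (W → Fin (n + 1)) (W → Fin (n + 1)) ℂ)) *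
        ((1 : Matrix (V → Fin (n + 1)) (V → Fin (n + 1)) ℂ) ⊗ₖ B)) := by
    rw [map_mul]; rfl
  rw [h1, ← mul_kronecker_mul, Matrix.one_mul, Matrix.mul_one, coe_reindexAlgEquiv,
    ← trace_kronecker]
  unfold trace
  simp only [diag_apply, reindex_apply, submatrix_apply]
  exact Equiv.sum_comp (cfgEquiv V W n).symm (fun p => (A ⊗ₖ B) p p)

theorem commute_iL_iR (A : Matrix (V → Fin (n + 1)) (V → Fin (n + 1)) ℂ)
    (B : Matrix (W → Fin (n + 1)) (W → Fin (n + 1)) ℂ) :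
    Commute (iL V W n A) (iR V W n B) := by
  have h1 : iL V W n A * iR V W n B = (reindexAlgEquiv ℂ ℂ (cfgEquiv V W n))
      ((A ⊗ₖ (1 : Matrix (W → Fin (n + 1)) (W → Fin (n + 1)) ℂ)) *
        ((1 : Matrix (V → Fin (n + 1)) (V → Fin (n + 1)) ℂ) ⊗ₖ B)) := by
    rw [map_mul]; rfl
  have h2 : iR V W n B * iL V W n A = (reindexAlgEquiv ℂ ℂ (cfgEquiv V W n))
      (((1 : Matrix (V → Fin (n + 1)) (V → Fin (n + 1)) ℂ) ⊗ₖ B) *
      (A ⊗ₖ (1 : Matrix (W → Fin (n + 1)) (W → Fin (n + 1)) ℂ))) := by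
    rw [map_mul]; rfl
  unfold Commute SemiconjBy
  rw [h1, h2, ← mul_kronecker_mul, ← mul_kronecker_mul]
  simp

theorem trace_exp_real {ι : Type*} [Fintype ι] [DecidableEq ι] (K : Matrix ι ι ℂ)
    (hK : K.IsHermitian) : (trace (exp (-K))).im = 0 := by
  have h : (exp (-K)).IsHermitian := IsHermitian.exp hK.neg
  have h2 : star (trace (exp (-K))) = trace (exp (-K)) := by
    rw [← trace_conjTranspose, h.eq]
  have h3 := congrArg Complex.im h2
  simp only [Complex.star_def, Complex.conj_im] at h3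
  linarith

theorem Z_sum (J : V → V → ℝ) (hJ : ∀ x, J x x = 0) (J' : W → W → ℝ)
    (β h : ℝ) : ev (Kmat n (sumJ J J') β h) 1 = ev (Kmat n J β h) 1 * ev (Kmat n J' β h) 1 := by
  unfold ev
  have hc : Commute (-(iL V W n (Kmat n J β h))) (-(iR V W n (Kmat n J' β h))) :=
    (Commute.neg_left (Commute.neg_right (commute_iL_iR (Kmat n J β h) (Kmat n J' β h))))
  rw [Matrix.one_mul, Matrix.one_mul, Matrix.one_mul, Kmat_sum, neg_add,
    Matrix.exp_add_of_commute _ _ hc, ← map_neg, ← map_neg,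
    ← matrix_map_exp, ← matrix_map_exp, trace_iL_iR, Complex.mul_re,
    trace_exp_real _ (Kmat_isHermitian J hJ β h)]
  ring

end sum

section equiv

variable {V W : Type*} [Fintype V] [DecidableEq V] [Fintype W] [DecidableEq W] {n : ℕ}

/-- relabelling of sites -/
def iE (e : V ≃ W) (n : ℕ) :
    Matrix (V → Fin (n + 1)) (V → Fin (n + 1)) ℂ →ₐ[ℂ]
      Matrix (W → Fin (n + 1)) (W → Fin (n + 1)) ℂ :=
  (reindexAlgEquiv ℂ ℂ (Equiv.arrowCongr e (Equiv.refl (Fin (n + 1))))).toAlgHom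

theorem iE_apply (e : V ≃ W) (A : Matrix (V → Fin (n + 1)) (V → Fin (n + 1)) ℂ)
    (σ τ : W → Fin (n + 1)) : iE e n A σ τ = A (σ ∘ e) (τ ∘ e) := rfl

theorem iE_siteOp (e : V ≃ W) (x : V) (A : Matrix (Fin (n + 1)) (Fin (n + 1)) ℂ) :
    iE e n (siteOp x A) = siteOp (e x) A := by
  ext σ τ
  rw [iE_apply]
  simp only [siteOp, Matrix.of_apply, Function.comp]
  by_cases h1 : ∀ y, y ≠ x → σ (e y) = τ (e y)
  · rw [if_pos h1, if_pos]
    intro y hy
    have := h1 (e.symm y) (fun h => hy (by rw [← h]; simp))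
    simpa using this
  · rw [if_neg h1, if_neg]
    intro h
    apply h1
    intro y hy
    exact h (e y) (fun h' => hy (e.injective h'))

theorem Kmat_equiv (e : V ≃ W) (J : W → W → ℝ) (β h : ℝ) :
    iE e n (Kmat n (fun x y => J (e x) (e y)) β h) = Kmat n J β h := by
  unfold Kmat ham magn Qxy
  simp only [map_smul, map_sub, map_neg, map_sum, map_add, map_mul, iE_siteOp]
  congr 2
  · congr 2
    rw [← Equiv.sum_comp e]
    apply Finset.sum_congr rfl
    intro x _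
    rw [← Equiv.sum_comp e]
  · congr 1
    rw [← Equiv.sum_comp e]

theorem trace_iE (e : V ≃ W) (A : Matrix (V → Fin (n + 1)) (V → Fin (n + 1)) ℂ) :
    trace (iE e n A) = trace A := by
  unfold trace
  simp only [diag_apply, iE_apply]
  exact Equiv.sum_comp (Equiv.arrowCongr e (Equiv.refl (Fin (n + 1)))).symm (fun σ => A σ σ)

theorem Z_equiv (e : V ≃ W) (J : W → W → ℝ) (β h : ℝ) :
    ev (Kmat n (fun x y => J (e x) (e y)) β h) 1 = ev (Kmat n J β h) 1 := by
  unfold ev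
  rw [Matrix.one_mul, Matrix.one_mul, ← Kmat_equiv e, ← map_neg, ← matrix_map_exp, trace_iE]

end equiv

end Vale.Agent.P361
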