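import Mathlib
import Vale.Agent.P361.Region

/-!
Almost additivity of `log Z` over boxes.
-/

namespace Vale.Agent.P361

open Matrix NormedSpace

section perturb

variable {V : Type*} [Fintype V] [DecidableEq V] {n : ℕ}

theorem ev_Q_ge (K : Matrix (V → Fin (n + 1)) (V → Fin (n + 1)) ℂ) (hK : K.IsHermitian)
    {x y : V} (hxy : x ≠ y) :
    -(((n : ℝ) / 2) * ((n : ℝ) / 2 + 1) * ev K 1) ≤ ev K (Qxy n x y) := by
  have hs : ∀ u : V, siteOp u (Sp n) * siteOp u (Sm n) + siteOp u (Sm n) * siteOp u (Sp n)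
      = (2 : ℂ) • ((((n : ℂ) / 2) * ((n : ℂ) / 2 + 1)) • 1
        - siteOp u (S3 n) * siteOp u (S3 n)) := by
    intro u
    rw [siteOp_mul, siteOp_mul, siteOp_mul, ← siteOp_add, anticomm_Sp_Sm, siteOp_smul, siteOp_sub,
      siteOp_smul, siteOp_one]
  have hPm : (siteOp x (Sp n) + siteOp y (Sp n))ᴴ = siteOp x (Sm n) + siteOp y (Sm n) := by
    rw [conjTranspose_add, siteOp_conjTranspose, siteOp_conjTranspose]; rfl
  have hMm : (siteOp x (Sm n) + siteOp y (Sm n))ᴴ = siteOp x (Sp n) + siteOp y (Sp n) := by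
    rw [← hPm, conjTranspose_conjTranspose]
  have hZm : (siteOp x (S3 n) + siteOp y (S3 n))ᴴ = siteOp x (S3 n) + siteOp y (S3 n) := by
    rw [conjTranspose_add, siteOp_conjTranspose, siteOp_conjTranspose, S3_conjTranspose]
  have h1 := ev_nonneg K (siteOp x (Sp n) + siteOp y (Sp n)) hK
  have h2 := ev_nonneg K (siteOp x (Sm n) + siteOp y (Sm n)) hK
  have h3 := ev_nonneg K (siteOp x (S3 n) + siteOp y (S3 n)) hK
  rw [hPm] at h1
  rw [hMm] at h2
  rw [hZm] at h3
  have key : (siteOp x (Sm n) + siteOp y (Sm n)) * (siteOp x (Sp n) + siteOp y (Sp n))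
      + (siteOp x (Sp n) + siteOp y (Sp n)) * (siteOp x (Sm n) + siteOp y (Sm n))
      + (((2 : ℝ) : ℂ) • ((siteOp x (S3 n) + siteOp y (S3 n)) * (siteOp x (S3 n) + siteOp y (S3 n))))
      = ((4 * (((n : ℝ) / 2) * ((n : ℝ) / 2 + 1)) : ℝ) : ℂ) • (1 : Matrix _ _ ℂ)
        + ((4 : ℝ) : ℂ) • Qxy n x y := by
    have hx := hs x
    have hy := hs y
    have c1 := siteOp_comm hxy (Sm n) (Sp n)
    have c2 := siteOp_comm hxy (Sp n) (Sm n)
    have c3 := siteOp_comm hxy (S3 n) (S3 n)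
    unfold Qxy
    set P := siteOp x (Sp n)
    set M := siteOp x (Sm n)
    set Z := siteOp x (S3 n)
    set P' := siteOp y (Sp n)
    set M' := siteOp y (Sm n)
    set Z' := siteOp y (S3 n)
    have e1 : (M + M') * (P + P') + (P + P') * (M + M')
        + ((2 : ℝ) : ℂ) • ((Z + Z') * (Z + Z'))
        = (P * M + M * P) + (P' * M' + M' * P') + (M * P' + P' * M) + (M' * P + P * M')
          + ((2 : ℝ) : ℂ) • (Z * Z + Z' * Z' + Z * Z' + Z' * Z) := by
      simp only [mul_add, add_mul]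
      module
    rw [e1, hx, hy, ← c1, ← c2, ← c3]
    push_cast
    module
  have h4 : 0 ≤ ev K ((siteOp x (Sm n) + siteOp y (Sm n)) * (siteOp x (Sp n) + siteOp y (Sp n))
      + (siteOp x (Sp n) + siteOp y (Sp n)) * (siteOp x (Sm n) + siteOp y (Sm n))
      + (((2 : ℝ) : ℂ) • ((siteOp x (S3 n) + siteOp y (S3 n))
        * (siteOp x (S3 n) + siteOp y (S3 n))))) := by
    rw [ev_add, ev_add, ev_smul]
    linarith
  rw [key, ev_add, ev_smul, ev_smul] at h4
  linarith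

theorem abs_ev_Q_le (K : Matrix (V → Fin (n + 1)) (V → Fin (n + 1)) ℂ) (hK : K.IsHermitian)
    {x y : V} (hxy : x ≠ y) :
    |ev K (Qxy n x y)| ≤ ((n : ℝ) / 2) * ((n : ℝ) / 2 + 1) * ev K 1 := by
  have hZ : 0 < ev K 1 := ev_one_pos K hK
  rw [abs_le]
  refine ⟨ev_Q_ge K hK hxy, le_trans (ev_Q_le K hK hxy) ?_⟩
  have : (0 : ℝ) ≤ (n : ℝ) / 2 := by positivity
  nlinarith [mul_nonneg this hZ.le]

theorem logZ_perturb_aux (J J' : V → V → ℝ) (hJ : ∀ x, J x x = 0) (hJ' : ∀ x, J' x x = 0)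
    (β h : ℝ) (hβ : 0 ≤ β) (κ : ℝ) (hκ : κ = β * (((n : ℝ) / 2) * ((n : ℝ) / 2 + 1))) :
    Real.log (ev (Kmat n J β h) 1) - κ / 2 * ∑ x, ∑ y, |J' x y - J x y|
      ≤ Real.log (ev (Kmat n J' β h) 1) := by
  set K := Kmat n J β h with hKd
  set K' := Kmat n J' β h with hKd'
  have hK : K.IsHermitian := Kmat_isHermitian J hJ β h
  have hK' : K'.IsHermitian := Kmat_isHermitian J' hJ' β h
  have hZ : 0 < ev K 1 := ev_one_pos K hK
  have h1 := peierls K K' hK hK'
  have h2 : ev K (K' - K) = -(β / 2) * ∑ x, ∑ y, (J' x y - J x y) * ev K (Qxy n x y) := by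
    have e : K' - K = ((-(β / 2) : ℝ) : ℂ) • ∑ x, ∑ y, ((J' x y - J x y : ℝ) : ℂ) • Qxy n x y := by
      rw [hKd, hKd']
      unfold Kmat ham
      have e1 : ∑ x, ∑ y, ((J' x y - J x y : ℝ) : ℂ) • Qxy n x y
          = (∑ x, ∑ y, (J' x y : ℂ) • Qxy n x y) - ∑ x, ∑ y, (J x y : ℂ) • Qxy n x y := by
        rw [← Finset.sum_sub_distrib]
        apply Finset.sum_congr rfl
        intro x _
        rw [← Finset.sum_sub_distrib]
        apply Finset.sum_congr rfl
        intro y _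
        push_cast
        rw [sub_smul]
      rw [e1]
      push_cast
      module
    rw [e, ev_smul, ev_sum]
    congr 1
    apply Finset.sum_congr rfl
    intro x _
    rw [ev_sum]
    apply Finset.sum_congr rfl
    intro y _
    rw [ev_smul]
  have h3 : ev K (K' - K) ≤ κ / 2 * (∑ x, ∑ y, |J' x y - J x y|) * ev K 1 := by
    rw [h2]
    have h4 : |∑ x, ∑ y, (J' x y - J x y) * ev K (Qxy n x y)| ≤
        (∑ x, ∑ y, |J' x y - J x y|) * (((n : ℝ) / 2) * ((n : ℝ) / 2 + 1) * ev K 1) := by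
      refine le_trans (Finset.abs_sum_le_sum_abs _ _) ?_
      rw [Finset.sum_mul]
      apply Finset.sum_le_sum
      intro x _
      refine le_trans (Finset.abs_sum_le_sum_abs _ _) ?_
      rw [Finset.sum_mul]
      apply Finset.sum_le_sum
      intro y _
      rw [abs_mul]
      by_cases hxy : x = y
      · subst hxy
        rw [hJ, hJ']
        simp
      · exact mul_le_mul_of_nonneg_left (abs_ev_Q_le K hK hxy) (abs_nonneg _)
    have h5 := neg_abs_le (∑ x, ∑ y, (J' x y - J x y) * ev K (Qxy n x y))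
    rw [hκ]
    have h6 : 0 ≤ β / 2 := by positivity
    have h7 := mul_le_mul_of_nonneg_left h4 h6
    nlinarith [mul_le_mul_of_nonneg_left h5 h6]
  have h4 : ev K (K' - K) / ev K 1 ≤ κ / 2 * (∑ x, ∑ y, |J' x y - J x y|) := by
    rw [div_le_iff₀ hZ]
    exact h3
  linarith

theorem logZ_perturb (J J' : V → V → ℝ) (hJ : ∀ x, J x x = 0) (hJ' : ∀ x, J' x x = 0)
    (β h : ℝ) (hβ : 0 ≤ β) (κ : ℝ) (hκ : κ = β * (((n : ℝ) / 2) * ((n : ℝ) / 2 + 1))) :
    |Real.log (ev (Kmat n J β h) 1) - Real.log (ev (Kmat n J' β h) 1)|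
      ≤ κ / 2 * ∑ x, ∑ y, |J x y - J' x y| := by
  have h1 := logZ_perturb_aux (n := n) J J' hJ hJ' β h hβ κ hκ
  have h2 := logZ_perturb_aux (n := n) J' J hJ' hJ β h hβ κ hκ
  have h3 : ∑ x, ∑ y, |J' x y - J x y| = ∑ x, ∑ y, |J x y - J' x y| := by
    simp only [abs_sub_comm]
  rw [h3] at h1
  rw [abs_le]
  constructor <;> linarith

end perturb

section finsets

/-- nearest-neighbour coupling on `ℤ³` -/
noncomputable def nn (x y : Fin 3 → ℤ) : ℝ := if ∑ i, |x i - y i| = 1 then 1 else 0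

theorem nn_self (x : Fin 3 → ℤ) : nn x x = 0 := by unfold nn; simp

theorem nn_nonneg (x y : Fin 3 → ℤ) : 0 ≤ nn x y := by unfold nn; split_ifs <;> norm_num

theorem nn_comm (x y : Fin 3 → ℤ) : nn x y = nn y x := by
  unfold nn; simp only [abs_sub_comm]

/-- `log Z` of a finite region -/
noncomputable def lnZ (n : ℕ) (β h : ℝ) (A : Finset (Fin 3 → ℤ)) : ℝ :=
  Real.log (ev (Kmat n (fun x y : ↥A => nn x y) β h) 1)

theorem lnZ_union (n : ℕ) (β h : ℝ) (hβ : 0 ≤ β) (κ : ℝ)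
    (hκ : κ = β * (((n : ℝ) / 2) * ((n : ℝ) / 2 + 1))) (A B C : Finset (Fin 3 → ℤ))
    (hAB : Disjoint A B) (hC : A ∪ B = C) :
    |lnZ n β h C - (lnZ n β h A + lnZ n β h B)| ≤ κ * ∑ x ∈ A, ∑ y ∈ B, nn x y := by
  let f : ↥A ⊕ ↥B → ↥C := fun p => match p with
    | Sum.inl x => ⟨x.1, by rw [← hC]; exact Finset.mem_union_left _ x.2⟩
    | Sum.inr x => ⟨x.1, by rw [← hC]; exact Finset.mem_union_right _ x.2⟩
  have hf : Function.Bijective f := by
    constructor
    · rintro (x | x) (y | y) hxy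
      · have : x.1 = y.1 := congrArg (fun z : ↥C => z.1) hxy
        rw [Subtype.ext this]
      · exfalso
        have : x.1 = y.1 := congrArg (fun z : ↥C => z.1) hxy
        exact Finset.disjoint_left.1 hAB x.2 (this ▸ y.2)
      · exfalso
        have : x.1 = y.1 := congrArg (fun z : ↥C => z.1) hxy
        exact Finset.disjoint_left.1 hAB y.2 (this ▸ x.2)
      · have : x.1 = y.1 := congrArg (fun z : ↥C => z.1) hxy
        rw [Subtype.ext this]
    · rintro ⟨z, hz⟩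
      rw [← hC] at hz
      rcases Finset.mem_union.1 hz with h | h
      · exact ⟨Sum.inl ⟨z, h⟩, rfl⟩
      · exact ⟨Sum.inr ⟨z, h⟩, rfl⟩
  let e : ↥A ⊕ ↥B ≃ ↥C := Equiv.ofBijective f hf
  have h1 : lnZ n β h C = Real.log (ev (Kmat n (fun x y : ↥A ⊕ ↥B =>
      (fun x y : ↥C => nn x y) (e x) (e y)) β h) 1) := by
    unfold lnZ
    rw [Z_equiv e (fun x y : ↥C => nn x y) β h]
  have h2 : lnZ n β h A + lnZ n β h B = Real.log (ev (Kmat n (sumJ
      (fun x y : ↥A => nn x y) (fun x y : ↥B => nn x y)) β h) 1) := by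
    unfold lnZ
    rw [Z_sum (fun x y : ↥A => nn x y) (fun x => nn_self _) (fun x y : ↥B => nn x y), Real.log_mul]
    · exact (ev_one_pos _ (Kmat_isHermitian (fun x y : ↥A => nn x y)
        (fun x => nn_self _) β h)).ne'
    · exact (ev_one_pos _ (Kmat_isHermitian (fun x y : ↥B => nn x y)
        (fun x => nn_self _) β h)).ne'
  rw [h1, h2]
  refine le_trans (logZ_perturb (n := n) _ _ ?_ ?_ β h hβ κ hκ) ?_
  · intro x; exact nn_self _
  · rintro (x | x)
    · exact nn_self _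
    · exact nn_self _
  · apply le_of_eq
    have e1 : ∀ x y : ↥A ⊕ ↥B, |(fun x y : ↥C => nn x y) (e x) (e y)
        - sumJ (fun x y : ↥A => nn x y) (fun x y : ↥B => nn x y) x y| =
        match x, y with
        | Sum.inl _, Sum.inl _ => 0
        | Sum.inr _, Sum.inr _ => 0
        | Sum.inl x, Sum.inr y => nn x y
        | Sum.inr x, Sum.inl y => nn x y := by
      rintro (x | x) (y | y)
      · show |nn x.1 y.1 - nn x.1 y.1| = 0
        simp
      · show |nn x.1 y.1 - 0| = nn x.1 y.1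
        rw [sub_zero, abs_of_nonneg (nn_nonneg _ _)]
      · show |nn x.1 y.1 - 0| = nn x.1 y.1
        rw [sub_zero, abs_of_nonneg (nn_nonneg _ _)]
      · show |nn x.1 y.1 - nn x.1 y.1| = 0
        simp
    simp only [e1, Fintype.sum_sum_type, Finset.sum_const_zero, zero_add, add_zero]
    have e2 : ∑ x : ↥B, ∑ y : ↥A, nn x.1 y.1 = ∑ x : ↥A, ∑ y : ↥B, nn x.1 y.1 := by
      rw [Finset.sum_comm]
      simp only [nn_comm]
    rw [e2]
    have e3 : ∑ x : ↥A, ∑ y : ↥B, nn x.1 y.1 = ∑ x ∈ A, ∑ y ∈ B, nn x y := by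
      rw [← Finset.sum_coe_sort A]
      apply Finset.sum_congr rfl
      intro x _
      rw [← Finset.sum_coe_sort B]
    rw [e3]
    ring

theorem lnZ_translate (n : ℕ) (β h : ℝ) (A B : Finset (Fin 3 → ℤ)) (t : Fin 3 → ℤ)
    (hAB : ∀ x, x ∈ A ↔ x + t ∈ B) : lnZ n β h A = lnZ n β h B := by
  let e : ↥A ≃ ↥B :=
    { toFun := fun x => ⟨x.1 + t, (hAB x.1).1 x.2⟩
      invFun := fun y => ⟨y.1 - t, (hAB _).2 (by rw [sub_add_cancel]; exact y.2)⟩
      left_inv := fun x => by ext; simp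
      right_inv := fun x => by ext; simp }
  unfold lnZ
  rw [← Z_equiv e (fun x y : ↥B => nn x y) β h]
  congr 3
  ext x y
  show nn x.1 y.1 = nn (x.1 + t) (y.1 + t)
  unfold nn
  simp

end finsets

end Vale.Agent.P361
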