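import Mathlib
import Vale.Agent.P361.Boxes
import Vale.Agent.P361.Waves

/-!
Existence of the thermodynamic limit of the pressure.
-/

namespace Vale.Agent.P361

open Matrix NormedSpace Filter Topology

/-- box `∏ [0, a_i)` -/
noncomputable def Bx (a : Fin 3 → ℕ) : Finset (Fin 3 → ℤ) :=
  Fintype.piFinset (fun i => Finset.Ico 0 (a i : ℤ))

theorem mem_Bx (a : Fin 3 → ℕ) (x : Fin 3 → ℤ) : x ∈ Bx a ↔ ∀ i, 0 ≤ x i ∧ x i < a i := by
  unfold Bx
  simp [Fintype.mem_piFinset]

/-- shifted box -/
noncomputable def Bs (a : Fin 3 → ℕ) (i : Fin 3) (p q : ℕ) : Finset (Fin 3 → ℤ) :=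
  Fintype.piFinset (fun j => if j = i then Finset.Ico (p : ℤ) (p + q : ℤ)
    else Finset.Ico 0 (a j : ℤ))

theorem mem_Bs (a : Fin 3 → ℕ) (i : Fin 3) (p q : ℕ) (x : Fin 3 → ℤ) :
    x ∈ Bs a i p q ↔ ((p : ℤ) ≤ x i ∧ x i < p + q) ∧ ∀ j, j ≠ i → 0 ≤ x j ∧ x j < a j := by
  unfold Bs
  rw [Fintype.mem_piFinset]
  constructor
  · intro h
    refine ⟨?_, ?_⟩
    · have := h i
      rw [if_pos rfl, Finset.mem_Ico] at this
      exact this
    · intro j hj
      have := h j
      rw [if_neg hj, Finset.mem_Ico] at this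
      exact this
  · rintro ⟨h1, h2⟩ j
    by_cases hj : j = i
    · subst hj
      rw [if_pos rfl, Finset.mem_Ico]
      exact h1
    · rw [if_neg hj, Finset.mem_Ico]
      exact h2 j hj

theorem mem_Bx_update (a : Fin 3 → ℕ) (i : Fin 3) (p : ℕ) (x : Fin 3 → ℤ) :
    x ∈ Bx (Function.update a i p) ↔ (0 ≤ x i ∧ x i < p) ∧ ∀ j, j ≠ i → 0 ≤ x j ∧ x j < a j := by
  rw [mem_Bx]
  constructor
  · intro h
    refine ⟨?_, ?_⟩
    · have := h i
      rw [Function.update_self] at this
      exact this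
    · intro j hj
      have := h j
      rw [Function.update_of_ne hj] at this
      exact this
  · rintro ⟨h1, h2⟩ j
    by_cases hj : j = i
    · subst hj
      rw [Function.update_self]
      exact h1
    · rw [Function.update_of_ne hj]
      exact h2 j hj

theorem crossing (a : Fin 3 → ℕ) (i : Fin 3) (p q : ℕ) :
    ∑ x ∈ Bx (Function.update a i p), ∑ y ∈ Bs a i p q, nn x y
      ≤ ∏ j, ((if j = i then 1 else a j : ℕ) : ℝ) := by
  classical
  have h1 : ∀ x ∈ Bx (Function.update a i p), ∑ y ∈ Bs a i p q, nn x y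
      ≤ if x i = (p : ℤ) - 1 then 1 else 0 := by
    intro x hx
    rw [mem_Bx_update] at hx
    have hkey : ∀ y ∈ Bs a i p q, nn x y ≠ 0 → x i = (p : ℤ) - 1 ∧ y = Function.update x i p := by
      intro y hy hne
      rw [mem_Bs] at hy
      have hs : ∑ j, |x j - y j| = 1 := by
        by_contra hcon
        apply hne
        unfold nn
        rw [if_neg hcon]
      have hi : 1 ≤ |x i - y i| := by
        rw [abs_sub_comm]
        exact le_trans (by omega) (le_abs_self _)
      have hsum : |x i - y i| + ∑ j ∈ Finset.univ.erase i, |x j - y j| = 1 := by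
        rw [Finset.add_sum_erase _ (fun j => |x j - y j|) (Finset.mem_univ i)]
        exact hs
      have hrest : 0 ≤ ∑ j ∈ Finset.univ.erase i, |x j - y j| :=
        Finset.sum_nonneg (fun j _ => abs_nonneg _)
      have hi1 : |x i - y i| = 1 := by omega
      have hrest0 : ∑ j ∈ Finset.univ.erase i, |x j - y j| = 0 := by omega
      have hoth : ∀ j, j ≠ i → x j = y j := by
        intro j hj
        have := (Finset.sum_eq_zero_iff_of_nonneg (fun j _ => abs_nonneg _)).1 hrest0 j
          (Finset.mem_erase.2 ⟨hj, Finset.mem_univ j⟩)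
        have := abs_eq_zero.1 this
        omega
      have hval : x i = (p : ℤ) - 1 ∧ y i = p := by
        rcases abs_eq (by norm_num : (0:ℤ) ≤ 1) |>.1 hi1 with h | h <;> omega
      refine ⟨hval.1, ?_⟩
      ext j
      by_cases hj : j = i
      · subst hj
        rw [Function.update_self]
        exact hval.2
      · rw [Function.update_of_ne hj]
        exact (hoth j hj).symm
    split_ifs with hxi
    · calc ∑ y ∈ Bs a i p q, nn x y ≤ ∑ y ∈ Bs a i p q,
            (if y = Function.update x i (p : ℤ) then (1 : ℝ) else 0) := by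
            apply Finset.sum_le_sum
            intro y hy
            by_cases hz : nn x y = 0
            · rw [hz]; split_ifs <;> norm_num
            · rw [if_pos (hkey y hy hz).2]
              unfold nn; split_ifs <;> norm_num
        _ ≤ 1 := by
            rw [Finset.sum_ite_eq']
            split_ifs <;> norm_num
    · apply le_of_eq
      apply Finset.sum_eq_zero
      intro y hy
      by_contra hz
      exact hxi (hkey y hy hz).1
  refine le_trans (Finset.sum_le_sum h1) ?_
  rw [← Finset.sum_filter, Finset.sum_const, nsmul_eq_mul, mul_one]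
  have h2 : (Bx (Function.update a i p)).filter (fun x => x i = (p : ℤ) - 1) ⊆
      Fintype.piFinset (fun j => if j = i then {(p : ℤ) - 1} else Finset.Ico 0 (a j : ℤ)) := by
    intro x hx
    rw [Finset.mem_filter, mem_Bx_update] at hx
    rw [Fintype.mem_piFinset]
    intro j
    by_cases hj : j = i
    · subst hj
      rw [if_pos rfl, Finset.mem_singleton]
      exact hx.2
    · rw [if_neg hj, Finset.mem_Ico]
      exact hx.1.2 j hj
  have h3 := Finset.card_le_card h2
  rw [Fintype.card_piFinset] at h3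
  have h4 : ∀ j, (if j = i then ({(p : ℤ) - 1} : Finset ℤ) else Finset.Ico 0 (a j : ℤ)).card
      = if j = i then 1 else a j := by
    intro j
    split_ifs <;> simp
  rw [Finset.prod_congr rfl (fun j _ => h4 j)] at h3
  calc (((Bx (Function.update a i p)).filter (fun x => x i = (p : ℤ) - 1)).card : ℝ)
      ≤ ((∏ j, (if j = i then 1 else a j) : ℕ) : ℝ) := by exact_mod_cast h3
    _ = _ := by push_cast; rfl

theorem lnZ_split (n : ℕ) (β h : ℝ) (hβ : 0 ≤ β) (κ : ℝ)
    (hκ : κ = β * (((n : ℝ) / 2) * ((n : ℝ) / 2 + 1))) (a : Fin 3 → ℕ) (i : Fin 3) (p q : ℕ) :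
    |lnZ n β h (Bx (Function.update a i (p + q)))
      - (lnZ n β h (Bx (Function.update a i p)) + lnZ n β h (Bx (Function.update a i q)))|
      ≤ κ * ∏ j, ((if j = i then 1 else a j : ℕ) : ℝ) := by
  have hκ0 : 0 ≤ κ := by rw [hκ]; positivity
  have h1 : lnZ n β h (Bx (Function.update a i q)) = lnZ n β h (Bs a i p q) := by
    apply lnZ_translate n β h _ _ (Pi.single i (p : ℤ))
    intro x
    rw [mem_Bx_update, mem_Bs]
    have e1 : (x + Pi.single i (p : ℤ) : Fin 3 → ℤ) i = x i + p := by simp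
    have e2 : ∀ j, j ≠ i → (x + Pi.single i (p : ℤ) : Fin 3 → ℤ) j = x j := by
      intro j hj; simp [hj]
    rw [e1]
    constructor
    · rintro ⟨h1, h2⟩
      refine ⟨by omega, fun j hj => by rw [e2 j hj]; exact h2 j hj⟩
    · rintro ⟨h1, h2⟩
      refine ⟨by omega, fun j hj => by have := h2 j hj; rw [e2 j hj] at this; exact this⟩
  rw [h1]
  refine le_trans (lnZ_union n β h hβ κ hκ _ (Bs a i p q) _ ?_ ?_) ?_
  · rw [Finset.disjoint_left]
    intro x hx hy
    rw [mem_Bx_update] at hx
    rw [mem_Bs] at hy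
    omega
  · ext x
    rw [Finset.mem_union, mem_Bx_update, mem_Bs, mem_Bx_update]
    push_cast
    constructor
    · rintro (⟨h1, h2⟩ | ⟨h1, h2⟩)
      · exact ⟨by omega, h2⟩
      · exact ⟨by omega, h2⟩
    · rintro ⟨h1, h2⟩
      by_cases hp : x i < p
      · left; exact ⟨by omega, h2⟩
      · right; exact ⟨by omega, h2⟩
  · exact mul_le_mul_of_nonneg_left (crossing a i p q) hκ0

/-- almost additive sequences have almost constant averages -/
theorem almost_additive (f : ℕ → ℝ) (C : ℝ) (hC : 0 ≤ C)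
    (hf : ∀ p q, |f (p + q) - (f p + f q)| ≤ C) (p q : ℕ) (hp : 0 < p) (hq : 0 < q) :
    |f p / p - f q / q| ≤ C * (1 / p + 1 / q) := by
  have hmul : ∀ (m p : ℕ), 0 < m → |f (m * p) - m * f p| ≤ m * C := by
    intro m p hm
    induction m with
    | zero => omega
    | succ m ih =>
      rcases Nat.eq_zero_or_pos m with h0 | h0
      · subst h0; simp [hC]
      · have h1 := ih h0
        have h2 := hf (m * p) p
        have e : (m + 1) * p = m * p + p := by ring
        rw [e]
        push_cast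
        have h3 : f (m * p + p) - ((m : ℝ) + 1) * f p
            = (f (m * p + p) - (f (m * p) + f p)) + (f (m * p) - m * f p) := by ring
        rw [h3]
        refine le_trans (abs_add_le _ _) ?_
        linarith
  have h1 := hmul q p hq
  have h2 := hmul p q hp
  rw [mul_comm p q] at h2
  have h3 : |(q : ℝ) * f p - p * f q| ≤ (p + q) * C := by
    have : (q : ℝ) * f p - p * f q = (f (q * p) - p * f q) - (f (q * p) - q * f p) := by ring
    rw [this]
    refine le_trans (abs_sub _ _) ?_
    linarith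
  have hp' : (0 : ℝ) < p := by exact_mod_cast hp
  have hq' : (0 : ℝ) < q := by exact_mod_cast hq
  have h4 : f p / p - f q / q = ((q : ℝ) * f p - p * f q) / (p * q) := by
    field_simp
  rw [h4, abs_div, abs_of_pos (mul_pos hp' hq'), div_le_iff₀ (mul_pos hp' hq')]
  have h5 : C * (1 / (p : ℝ) + 1 / q) * (p * q) = (p + q) * C := by
    field_simp
    ring
  rw [h5]
  exact h3

theorem lnZ_dir (n : ℕ) (β h : ℝ) (hβ : 0 ≤ β) (κ : ℝ)
    (hκ : κ = β * (((n : ℝ) / 2) * ((n : ℝ) / 2 + 1))) (a : Fin 3 → ℕ) (ha : ∀ i, 0 < a i)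
    (i : Fin 3) (q : ℕ) (hq : 0 < q) :
    |lnZ n β h (Bx a) / ∏ j, (a j : ℝ)
      - lnZ n β h (Bx (Function.update a i q)) / ∏ j, ((Function.update a i q j : ℕ) : ℝ)|
      ≤ κ * (1 / (a i : ℝ) + 1 / q) := by
  have hκ0 : 0 ≤ κ := by rw [hκ]; positivity
  have hP : (0 : ℝ) < ∏ j, ((if j = i then 1 else a j : ℕ) : ℝ) := by
    apply Finset.prod_pos
    intro j _
    split_ifs
    · norm_num
    · exact_mod_cast ha j
  set P : ℝ := ∏ j, ((if j = i then 1 else a j : ℕ) : ℝ) with hPdef
  have h1 := almost_additive (fun m => lnZ n β h (Bx (Function.update a i m))) (κ * P)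
    (mul_nonneg hκ0 hP.le) (fun p q => lnZ_split n β h hβ κ hκ a i p q) (a i) q (ha i) hq
  simp only [Function.update_eq_self] at h1
  have hprod : ∀ m : ℕ, ∏ j, ((Function.update a i m j : ℕ) : ℝ) = (m : ℝ) * P := by
    intro m
    rw [hPdef, ← Finset.mul_prod_erase _ _ (Finset.mem_univ i),
      ← Finset.mul_prod_erase (Finset.univ) (fun j => ((if j = i then 1 else a j : ℕ) : ℝ))
        (Finset.mem_univ i)]
    rw [Function.update_self, if_pos rfl, Nat.cast_one, one_mul]
    congr 1
    apply Finset.prod_congr rfl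
    intro j hj
    have hj' : j ≠ i := Finset.ne_of_mem_erase hj
    rw [Function.update_of_ne hj', if_neg hj']
  have h2 : ∏ j, (a j : ℝ) = (a i : ℝ) * P := by
    have := hprod (a i)
    rw [Function.update_eq_self] at this
    exact this
  rw [hprod q, h2]
  have ha' : (0 : ℝ) < a i := by exact_mod_cast ha i
  have hq' : (0 : ℝ) < q := by exact_mod_cast hq
  have e1 : lnZ n β h (Bx a) / ((a i : ℝ) * P)
      - lnZ n β h (Bx (Function.update a i q)) / ((q : ℝ) * P)
      = (lnZ n β h (Bx a) / (a i : ℝ) - lnZ n β h (Bx (Function.update a i q)) / (q : ℝ)) / P := by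
    field_simp
  rw [e1, abs_div, abs_of_pos hP, div_le_iff₀ hP]
  calc _ ≤ κ * P * (1 / (a i : ℝ) + 1 / q) := h1
    _ = _ := by ring

theorem lnZ_cube (n : ℕ) (β h : ℝ) (hβ : 0 ≤ β) (κ : ℝ)
    (hκ : κ = β * (((n : ℝ) / 2) * ((n : ℝ) / 2 + 1))) (p q : ℕ) (hp : 0 < p) (hq : 0 < q) :
    |lnZ n β h (Bx (fun _ => p)) / (p : ℝ) ^ 3 - lnZ n β h (Bx (fun _ => q)) / (q : ℝ) ^ 3|
      ≤ 3 * κ * (1 / (p : ℝ) + 1 / q) := by
  set a0 : Fin 3 → ℕ := fun _ => p with ha0
  set a1 := Function.update a0 0 q with ha1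
  set a2 := Function.update a1 1 q with ha2
  set a3 := Function.update a2 2 q with ha3
  have hpos0 : ∀ i, 0 < a0 i := fun i => hp
  have hpos1 : ∀ i, 0 < a1 i := by
    intro i
    by_cases hi : i = 0
    · subst hi; rw [ha1, Function.update_self]; exact hq
    · rw [ha1, Function.update_of_ne hi]; exact hpos0 i
  have hpos2 : ∀ i, 0 < a2 i := by
    intro i
    by_cases hi : i = 1
    · subst hi; rw [ha2, Function.update_self]; exact hq
    · rw [ha2, Function.update_of_ne hi]; exact hpos1 i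
  have h0 := lnZ_dir n β h hβ κ hκ a0 hpos0 0 q hq
  have h1 := lnZ_dir n β h hβ κ hκ a1 hpos1 1 q hq
  have h2 := lnZ_dir n β h hβ κ hκ a2 hpos2 2 q hq
  rw [← ha1] at h0
  rw [← ha2] at h1
  rw [← ha3] at h2
  have e0 : (a0 0 : ℝ) = p := rfl
  have e1 : (a1 1 : ℝ) = p := by rw [ha1, Function.update_of_ne (by decide)]
  have e2 : (a2 2 : ℝ) = p := by
    rw [ha2, Function.update_of_ne (by decide), ha1, Function.update_of_ne (by decide)]
  rw [e0] at h0
  rw [e1] at h1
  rw [e2] at h2
  have e3 : a3 = fun _ => q := by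
    ext i
    fin_cases i
    · show a3 0 = q
      rw [ha3, Function.update_of_ne (by decide), ha2, Function.update_of_ne (by decide), ha1,
        Function.update_self]
    · show a3 1 = q
      rw [ha3, Function.update_of_ne (by decide), ha2, Function.update_self]
    · show a3 2 = q
      rw [ha3, Function.update_self]
  have e4 : ∏ j, (a0 j : ℝ) = (p : ℝ) ^ 3 := by simp [ha0]
  have e5 : ∏ j, (a3 j : ℝ) = (q : ℝ) ^ 3 := by rw [e3]; simp
  rw [← e4, ← e5, ← e3]
  set u0 := lnZ n β h (Bx a0) / ∏ j, (a0 j : ℝ)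
  set u1 := lnZ n β h (Bx a1) / ∏ j, (a1 j : ℝ)
  set u2 := lnZ n β h (Bx a2) / ∏ j, (a2 j : ℝ)
  set u3 := lnZ n β h (Bx a3) / ∏ j, (a3 j : ℝ)
  have : u0 - u3 = (u0 - u1) + (u1 - u2) + (u2 - u3) := by ring
  rw [this]
  refine le_trans (abs_add_three _ _ _) ?_
  linarith

end Vale.Agent.P361
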