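import Mathlib
import Vale.Agent.P361.Finite
import Vale.Agent.P361.Limit
import Vale.Agent.P361.Riemann

/-!
From the finite-volume inequality to a bound for the spontaneous magnetization.
-/

namespace Vale.Agent.P361

open Matrix NormedSpace Filter Topology

/-- finite-volume magnetization per site -/
noncomputable def mag (n N : ℕ) (β h : ℝ) : ℝ :=
  ev (Kmat n (Jnn (N := N)) β h) (magn (Site N) n)
    / ((Fintype.card (Site N) : ℝ) * ev (Kmat n (Jnn (N := N)) β h) 1)

theorem coth_identity {y : ℝ} (hy : 0 < y) :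
    coefA y - coefB y * y = 1 + 2 / (Real.exp (2 * y) - 1) := by
  unfold coefA coefB
  have hs : 0 < Real.sinh y := Real.sinh_pos_iff.2 hy
  have h1 : Real.cosh y / Real.sinh y + y / Real.sinh y ^ 2 - 1 / Real.sinh y ^ 2 * y
      = Real.cosh y / Real.sinh y := by ring
  rw [h1]
  have he : 1 < Real.exp (2 * y) := by
    rw [Real.one_lt_exp_iff]; linarith
  have he2 : Real.exp (2 * y) = Real.exp y * Real.exp y := by
    rw [← Real.exp_add]; ring_nf
  have hee : Real.exp y * Real.exp (-y) = 1 := by rw [← Real.exp_add]; simp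
  have hsub : Real.exp (2 * y) - 1 = 2 * Real.exp y * Real.sinh y := by
    rw [Real.sinh_eq, he2]
    linear_combination hee
  rw [hsub]
  have hey : 0 < Real.exp y := Real.exp_pos y
  field_simp
  rw [Real.cosh_eq, Real.sinh_eq]
  linear_combination hee

theorem geom_le {x : ℝ} (hx : 0 < x) (J : ℕ) :
    ∑ j ∈ Finset.range J, Real.exp (-((j + 1 : ℕ) * x)) ≤ 1 / (Real.exp x - 1) := by
  have he : 1 < Real.exp x := by rw [Real.one_lt_exp_iff]; exact hx
  have hr0 : 0 ≤ Real.exp (-x) := (Real.exp_pos _).le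
  have hr1 : Real.exp (-x) < 1 := by rw [Real.exp_lt_one_iff]; linarith
  have h1 : ∀ j : ℕ, Real.exp (-((j + 1 : ℕ) * x)) = Real.exp (-x) * Real.exp (-x) ^ j := by
    intro j
    rw [← Real.exp_nat_mul, ← Real.exp_add]
    congr 1
    push_cast
    ring
  rw [Finset.sum_congr rfl (fun j _ => h1 j), ← Finset.mul_sum]
  have h2 : ∑ j ∈ Finset.range J, Real.exp (-x) ^ j ≤ (1 - Real.exp (-x))⁻¹ := by
    have hs := summable_geometric_of_lt_one hr0 hr1
    have := hs.sum_le_tsum (Finset.range J) (fun j _ => by positivity)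
    rwa [tsum_geometric_of_lt_one hr0 hr1] at this
  refine le_trans (mul_le_mul_of_nonneg_left h2 hr0) (le_of_eq ?_)
  have hee : Real.exp x * Real.exp (-x) = 1 := by rw [← Real.exp_add]; simp
  have h3 : 1 - Real.exp (-x) ≠ 0 := by linarith
  have h4 : Real.exp x - 1 ≠ 0 := by linarith
  field_simp
  linear_combination hee

theorem mode_sum (N : ℕ) (t : ℝ) :
    ∑ k : Fin 3 → Fin (2 * N + 1), Real.exp (-(t * (en k / 2)))
      = (Fintype.card (Site N) : ℝ) * AL (2 * N + 1) t ^ 3 := by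
  have h1 : ∀ k : Fin 3 → Fin (2 * N + 1), Real.exp (-(t * (en k / 2)))
      = ∏ i, Real.exp (-(t * (1 - Real.cos (theta (2 * N + 1) (k i))))) := by
    intro k
    rw [← Real.exp_sum]
    congr 1
    unfold en
    rw [Finset.sum_neg_distrib, ← Finset.mul_sum, ← Finset.mul_sum]
    ring
  rw [Finset.sum_congr rfl (fun k _ => h1 k)]
  have h2 := Finset.prod_univ_sum (fun _ : Fin 3 => (Finset.univ : Finset (Fin (2 * N + 1))))
    (fun _ l => Real.exp (-(t * (1 - Real.cos (theta (2 * N + 1) l)))))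
  rw [Fintype.piFinset_univ] at h2
  rw [← h2, Finset.prod_const, Finset.card_univ, Fintype.card_fin, card_Site]
  unfold AL
  have : ((2 * N + 1 : ℕ) : ℝ) ≠ 0 := by positivity
  push_cast at this ⊢
  field_simp

theorem finite_bound (n N : ℕ) (hn : 0 < n) (β h : ℝ) (hβ : 0 < β) (hh : 0 < h)
    (hm : 0 < mag n N β h) (J : ℕ) :
    mag n N β h * ∑ j ∈ Finset.range J, Real.exp (-((j + 1 : ℕ) * (β * h)))
        * AL (2 * N + 1) (2 * (j + 1 : ℕ) * β * ((n : ℝ) / 2) ^ 2 / mag n N β h) ^ 3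
      ≤ (n : ℝ) / 2 * ((n : ℝ) / 2 - mag n N β h) := by
  set K := Kmat n (Jnn (N := N)) β h with hKd
  set c : ℝ := (Fintype.card (Site N) : ℝ) with hc
  set Z : ℝ := ev K 1 with hZd
  set μ : ℝ := mag n N β h with hμ
  have hK : K.IsHermitian := Kmat_isHermitian Jnn Jnn_self β h
  have hZ : 0 < Z := ev_one_pos K hK
  have hc0 : 0 < c := by
    rw [hc, card_Site]; positivity
  set S : ℝ := (n : ℝ) / 2 with hS
  have hS0 : 0 < S := by rw [hS]; positivity
  have hM : ev K (magn (Site N) n) = μ * (c * Z) := by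
    rw [hμ]; unfold mag
    rw [← hKd, ← hc, ← hZd]
    field_simp
  -- choice of the parameters
  set x : (Fin 3 → Fin (2 * N + 1)) → ℝ := fun k => β * (S ^ 2 * en k / μ + h) with hx
  have hxpos : ∀ k, 0 < x k := by
    intro k
    have := en_nonneg k
    have : 0 ≤ S ^ 2 * en k / μ := by positivity
    rw [hx]
    simp only
    apply mul_pos hβ
    linarith
  have h1 := finite_ineq n N β h hβ.le (fun k => x k / 2) (fun k => by have := hxpos k; linarith)
  rw [← hKd, ← hc, ← hZd, hM, ← hS] at h1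
  have h2 : ∀ k, (coefA (x k / 2) * (2 * (μ * (c * Z)))
      - coefB (x k / 2) / 2 * (β * (c * (2 * en k) * (S ^ 2 * Z) + h * (2 * (μ * (c * Z))))))
      = (c * Z) * (2 * μ) * (1 + 2 / (Real.exp (x k) - 1)) := by
    intro k
    have e1 := coth_identity (y := x k / 2) (by have := hxpos k; linarith)
    have e2 : 2 * (x k / 2) = x k := by ring
    rw [e2] at e1
    rw [← e1]
    have e3 : β * (c * (2 * en k) * (S ^ 2 * Z) + h * (2 * (μ * (c * Z))))
        = (c * Z) * (2 * μ) * x k := by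
      rw [hx]
      simp only
      field_simp
    rw [e3]
    ring
  rw [Finset.sum_congr rfl (fun k _ => h2 k), ← Finset.mul_sum, Finset.sum_add_distrib] at h1
  have hcardK : ∑ _k : Fin 3 → Fin (2 * N + 1), (1 : ℝ) = c := by
    rw [Finset.sum_const, Finset.card_univ, nsmul_eq_mul, mul_one, hc, card_Site]
    simp
  rw [hcardK] at h1
  have h3 : ∑ k : Fin 3 → Fin (2 * N + 1), 2 / (Real.exp (x k) - 1)
      = 2 * ∑ k : Fin 3 → Fin (2 * N + 1), 1 / (Real.exp (x k) - 1) := by
    rw [Finset.mul_sum]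
    apply Finset.sum_congr rfl
    intro k _
    ring
  rw [h3] at h1
  -- geometric expansion
  have h4 : ∑ k : Fin 3 → Fin (2 * N + 1), ∑ j ∈ Finset.range J, Real.exp (-((j + 1 : ℕ) * x k))
      ≤ ∑ k : Fin 3 → Fin (2 * N + 1), 1 / (Real.exp (x k) - 1) :=
    Finset.sum_le_sum (fun k _ => geom_le (hxpos k) J)
  rw [Finset.sum_comm] at h4
  have h5 : ∀ j ∈ Finset.range J, ∑ k : Fin 3 → Fin (2 * N + 1), Real.exp (-((j + 1 : ℕ) * x k))
      = c * (Real.exp (-((j + 1 : ℕ) * (β * h)))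
        * AL (2 * N + 1) (2 * (j + 1 : ℕ) * β * S ^ 2 / μ) ^ 3) := by
    intro j _
    have e1 : ∀ k : Fin 3 → Fin (2 * N + 1), Real.exp (-((j + 1 : ℕ) * x k))
        = Real.exp (-((j + 1 : ℕ) * (β * h)))
          * Real.exp (-((2 * (j + 1 : ℕ) * β * S ^ 2 / μ) * (en k / 2))) := by
      intro k
      rw [← Real.exp_add]
      congr 1
      rw [hx]
      simp only
      field_simp
      ring
    rw [Finset.sum_congr rfl (fun k _ => e1 k), ← Finset.mul_sum, mode_sum, ← hc]
    ring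
  rw [Finset.sum_congr rfl h5, ← Finset.mul_sum] at h4
  set Sg : ℝ := ∑ j ∈ Finset.range J, Real.exp (-((j + 1 : ℕ) * (β * h)))
        * AL (2 * N + 1) (2 * (j + 1 : ℕ) * β * S ^ 2 / μ) ^ 3 with hSg
  set T : ℝ := ∑ k : Fin 3 → Fin (2 * N + 1), 1 / (Real.exp (x k) - 1) with hT
  -- h1 : c*Z*(2μ)*(c + 2T) ≤ c*(c*(n Z) + 2(n-1)(c*(S Z) - μ c Z))
  have hnS : (n : ℝ) = 2 * S := by rw [hS]; ring
  rw [hnS] at h1
  have hcZ : 0 < c * Z := mul_pos hc0 hZ
  have h6 : (c * Z) * (2 * μ * (c + 2 * T)) ≤ (c * Z) * (c * (2 * S + 2 * (2 * S - 1) * (S - μ))) := by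
    calc (c * Z) * (2 * μ * (c + 2 * T)) = c * Z * (2 * μ) * (c + 2 * T) := by ring
      _ ≤ _ := h1
      _ = _ := by ring
  have h7 := le_of_mul_le_mul_left h6 hcZ
  have h8 : c * (μ * Sg) ≤ c * (S * (S - μ)) := by
    have h9 : 4 * μ * (c * Sg) ≤ 4 * μ * T := by
      apply mul_le_mul_of_nonneg_left h4 (by positivity)
    nlinarith
  exact le_of_mul_le_mul_left h8 hc0

theorem finite_bound' (n N : ℕ) (hn : 0 < n) (β h : ℝ) (hβ : 0 < β) (hh : 0 < h)
    (m' : ℝ) (hm' : 0 < m') (hm : m' ≤ mag n N β h) (J : ℕ) :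
    m' * ∑ j ∈ Finset.range J, Real.exp (-((j + 1 : ℕ) * (β * h)))
        * AL (2 * N + 1) (2 * (j + 1 : ℕ) * β * ((n : ℝ) / 2) ^ 2 / m') ^ 3
      ≤ (n : ℝ) / 2 * ((n : ℝ) / 2 - m') := by
  have h1 := finite_bound n N hn β h hβ hh (lt_of_lt_of_le hm' hm) J
  have h2 : (n : ℝ) / 2 * ((n : ℝ) / 2 - mag n N β h) ≤ (n : ℝ) / 2 * ((n : ℝ) / 2 - m') := by
    apply mul_le_mul_of_nonneg_left _ (by positivity)
    linarith
  refine le_trans ?_ (le_trans h1 h2)
  apply mul_le_mul hm _ _ (le_trans hm'.le hm)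
  · apply Finset.sum_le_sum
    intro j _
    apply mul_le_mul_of_nonneg_left _ (Real.exp_pos _).le
    apply pow_le_pow_left₀ (AL_nonneg _ _)
    apply AL_anti
    apply div_le_div_of_nonneg_left _ hm' hm
    positivity
  · apply Finset.sum_nonneg
    intro j _
    have := AL_nonneg (2 * N + 1) (2 * (j + 1 : ℕ) * β * ((n : ℝ) / 2) ^ 2 / m')
    positivity

/-! ### Identification of the finite-volume pressure -/

theorem S_dot (n : ℕ) {V : Type*} [Fintype V] [DecidableEq V] (x y : V) :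
    siteOp x (S1 n) * siteOp y (S1 n) + siteOp x (S2 n) * siteOp y (S2 n)
        + siteOp x (S3 n) * siteOp y (S3 n) = Qxy n x y := by
  unfold S1 S2 Qxy
  have hSm : (Sp n)ᴴ = Sm n := rfl
  rw [hSm]
  simp only [siteOp_smul, siteOp_add, siteOp_sub, smul_mul_smul_comm, add_mul, mul_add, sub_mul,
    mul_sub]
  have hI : (-Complex.I / 2) * (-Complex.I / 2) = -(1 / 4 : ℂ) := by
    have := Complex.I_mul_I
    linear_combination (1 / 4 : ℂ) * this
  rw [hI]
  module

theorem hamiltonian_eq (n N : ℕ) : hamiltonian n N = ham n (Jnn (N := N)) := by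
  unfold hamiltonian ham
  congr 2
  apply Finset.sum_congr rfl
  intro x _
  apply Finset.sum_congr rfl
  intro y _
  unfold Jnn
  split_ifs with h
  · rw [S_dot]; simp
  · simp

theorem finitePressure_eq (n N : ℕ) (β h : ℝ) : finitePressure n N β h =
    Real.log (ev (Kmat n (Jnn (N := N)) β h) 1) / (β * (Fintype.card (Site N) : ℝ)) := by
  unfold finitePressure ev Kmat
  rw [hamiltonian_eq, Matrix.one_mul]
  rfl

theorem finitePressure_support (n N : ℕ) (β h h' : ℝ) (hβ : 0 < β) :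
    finitePressure n N β h + (h' - h) * mag n N β h ≤ finitePressure n N β h' := by
  rw [finitePressure_eq, finitePressure_eq]
  unfold mag
  set K := Kmat n (Jnn (N := N)) β h with hKd
  set K' := Kmat n (Jnn (N := N)) β h' with hKd'
  set c : ℝ := (Fintype.card (Site N) : ℝ) with hc
  have hK : K.IsHermitian := Kmat_isHermitian Jnn Jnn_self β h
  have hK' : K'.IsHermitian := Kmat_isHermitian Jnn Jnn_self β h'
  have hZ : 0 < ev K 1 := ev_one_pos K hK
  have hc0 : 0 < c := by
    rw [hc, card_Site]; positivity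
  have h1 := peierls K K' hK hK'
  have h2 : K' - K = ((-(β * (h' - h)) : ℝ) : ℂ) • magn (Site N) n := by
    rw [hKd, hKd']
    unfold Kmat
    push_cast
    module
  rw [h2, ev_smul] at h1
  have h3 : Real.log (ev K 1) + β * (h' - h) * (ev K (magn (Site N) n) / ev K 1)
      ≤ Real.log (ev K' 1) := by
    refine le_trans (le_of_eq ?_) h1
    ring
  have h4 : Real.log (ev K 1) / (β * c) + (h' - h) * (ev K (magn (Site N) n) / (c * ev K 1))
      = (Real.log (ev K 1) + β * (h' - h) * (ev K (magn (Site N) n) / ev K 1)) / (β * c) := by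
    field_simp
  rw [h4]
  exact div_le_div_of_nonneg_right h3 (by positivity)

theorem lnZ_site (n N : ℕ) (β h : ℝ) : Real.log (ev (Kmat n (Jnn (N := N)) β h) 1)
    = lnZ n β h (Bx (fun _ => 2 * N + 1)) := by
  let e : Site N ≃ ↥(Bx (fun _ => 2 * N + 1)) :=
    { toFun := fun x => ⟨fun i => (x i : ℤ) + N, by
        rw [mem_Bx]
        intro i
        have := Finset.mem_Icc.1 (x i).2
        push_cast
        constructor <;> omega⟩
      invFun := fun y i => ⟨y.1 i - N, by
        have := (mem_Bx _ _).1 y.2 i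
        rw [Finset.mem_Icc]
        push_cast at this
        constructor <;> omega⟩
      left_inv := fun x => by
        ext i
        simp
      right_inv := fun y => by
        ext i
        simp }
  unfold lnZ
  rw [← Z_equiv e (fun x y : ↥(Bx (fun _ => 2 * N + 1)) => nn x y) β h]
  congr 3
  ext x y
  show Jnn x y = nn (fun i => (x i : ℤ) + N) (fun i => (y i : ℤ) + N)
  unfold Jnn nn
  simp

theorem finitePressure_eq_lnZ (n N : ℕ) (β h : ℝ) : finitePressure n N β h
    = (1 / β) * (lnZ n β h (Bx (fun _ => 2 * N + 1)) / ((2 * N + 1 : ℕ) : ℝ) ^ 3) := by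
  rw [finitePressure_eq, lnZ_site, card_Site]
  push_cast
  field_simp

theorem pressure_tendsto (n : ℕ) (β h : ℝ) (hβ : 0 < β) :
    Tendsto (fun N : ℕ => finitePressure n N β h) atTop (𝓝 (pressure n β h)) := by
  have hcauchy : CauchySeq (fun N : ℕ => finitePressure n N β h) := by
    set κ : ℝ := β * (((n : ℝ) / 2) * ((n : ℝ) / 2 + 1)) with hκ
    have hκ0 : 0 ≤ κ := by positivity
    apply cauchySeq_of_le_tendsto_0' (fun N : ℕ => (1 / β) * (6 * κ / ((2 * N + 1 : ℕ) : ℝ)))
    · intro N M hNM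
      rw [Real.dist_eq, finitePressure_eq_lnZ, finitePressure_eq_lnZ, ← mul_sub, abs_mul,
        abs_of_pos (by positivity : 0 < 1 / β)]
      apply mul_le_mul_of_nonneg_left _ (by positivity)
      refine le_trans (lnZ_cube n β h hβ.le κ hκ (2 * N + 1) (2 * M + 1) (by omega) (by omega)) ?_
      have h1 : 1 / ((2 * M + 1 : ℕ) : ℝ) ≤ 1 / ((2 * N + 1 : ℕ) : ℝ) := by
        apply one_div_le_one_div_of_le (by positivity)
        exact_mod_cast (by omega : 2 * N + 1 ≤ 2 * M + 1)
      calc 3 * κ * (1 / ((2 * N + 1 : ℕ) : ℝ) + 1 / ((2 * M + 1 : ℕ) : ℝ))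
          ≤ 3 * κ * (1 / ((2 * N + 1 : ℕ) : ℝ) + 1 / ((2 * N + 1 : ℕ) : ℝ)) := by
            apply mul_le_mul_of_nonneg_left _ (by positivity)
            linarith
        _ = 6 * κ / ((2 * N + 1 : ℕ) : ℝ) := by ring
    · have h1 : Tendsto (fun N : ℕ => 6 * κ / ((2 * N + 1 : ℕ) : ℝ)) atTop (𝓝 0) := by
        apply Tendsto.const_div_atTop
        apply tendsto_natCast_atTop_atTop.comp
        apply tendsto_atTop_mono (f := fun N : ℕ => N)
        · intro N; omega
        · exact tendsto_id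
      simpa using h1.const_mul (1 / β)
  obtain ⟨l, hl⟩ := cauchySeq_tendsto_of_complete hcauchy
  have : pressure n β h = l := by
    unfold pressure
    exact hl.limUnder_eq
  rw [this]
  exact hl

theorem pressure_convex (n : ℕ) (β : ℝ) (hβ : 0 < β) :
    ConvexOn ℝ Set.univ (pressure n β) := by
  refine ⟨convex_univ, ?_⟩
  intro x _ y _ a b ha hb hab
  simp only [smul_eq_mul]
  have h1 := pressure_tendsto n β (a * x + b * y) hβ
  have h2 := ((pressure_tendsto n β x hβ).const_mul a).add ((pressure_tendsto n β y hβ).const_mul b)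
  refine le_of_tendsto_of_tendsto' h1 h2 (fun N => ?_)
  have h3 := finitePressure_support n N β (a * x + b * y) x hβ
  have h4 := finitePressure_support n N β (a * x + b * y) y hβ
  have h5 := mul_le_mul_of_nonneg_left h3 ha
  have h6 := mul_le_mul_of_nonneg_left h4 hb
  have h7 : b = 1 - a := by linarith
  subst h7
  nlinarith

theorem magnetization_hasDeriv (n : ℕ) (β : ℝ) (hβ : 0 < β) :
    HasDerivWithinAt (pressure n β) (spontaneousMagnetization n β) (Set.Ioi 0) 0 := by
  unfold spontaneousMagnetization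
  exact (pressure_convex n β hβ).hasDerivWithinAt_rightDeriv_of_mem_interior
    (by simp)

theorem magnetization_le_slope (n : ℕ) (β h : ℝ) (hβ : 0 < β) (hh : 0 < h) :
    spontaneousMagnetization n β ≤ (pressure n β h - pressure n β 0) / h := by
  have h1 := (pressure_convex n β hβ).rightDeriv_le_slope_of_mem_interior (x := 0) (y := h)
    (by simp) (Set.mem_univ _) hh
  rw [slope_def_field, sub_zero] at h1
  exact h1

/-- For `m' < m_S(β)` and `h > 0`, the finite-volume magnetization is eventually above `m'`. -/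
theorem eventually_mag (n : ℕ) (β h m' : ℝ) (hβ : 0 < β) (hh : 0 < h)
    (hm : m' < spontaneousMagnetization n β) : ∀ᶠ N : ℕ in atTop, m' < mag n N β h := by
  have h1 := magnetization_le_slope n β h hβ hh
  have h2 : Tendsto (fun N : ℕ => (finitePressure n N β h - finitePressure n N β 0) / h) atTop
      (𝓝 ((pressure n β h - pressure n β 0) / h)) :=
    ((pressure_tendsto n β h hβ).sub (pressure_tendsto n β 0 hβ)).div_const h
  have h3 := h2.eventually (lt_mem_nhds (lt_of_lt_of_le hm h1))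
  filter_upwards [h3] with N hN
  refine lt_of_lt_of_le hN ?_
  have h4 := finitePressure_support n N β h 0 hβ
  rw [div_le_iff₀ hh]
  linarith

/-- The infinite-volume bound, in terms of the one-dimensional integrals `I1`. -/
theorem infinite_bound (n : ℕ) (hn : 0 < n) (β : ℝ) (hβ : 0 < β) (m' : ℝ) (hm' : 0 < m')
    (hm : m' < spontaneousMagnetization n β) (J : ℕ) :
    m' * ∑ j ∈ Finset.range J, I1 (2 * (j + 1 : ℕ) * β * ((n : ℝ) / 2) ^ 2 / m') ^ 3
      ≤ (n : ℝ) / 2 * ((n : ℝ) / 2 - m') := by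
  -- first fixed h
  have h1 : ∀ h : ℝ, 0 < h → m' * ∑ j ∈ Finset.range J, Real.exp (-((j + 1 : ℕ) * (β * h)))
        * I1 (2 * (j + 1 : ℕ) * β * ((n : ℝ) / 2) ^ 2 / m') ^ 3
      ≤ (n : ℝ) / 2 * ((n : ℝ) / 2 - m') := by
    intro h hh
    have h2 : Tendsto (fun N : ℕ => m' * ∑ j ∈ Finset.range J,
        Real.exp (-((j + 1 : ℕ) * (β * h)))
          * AL (2 * N + 1) (2 * (j + 1 : ℕ) * β * ((n : ℝ) / 2) ^ 2 / m') ^ 3) atTop
        (𝓝 (m' * ∑ j ∈ Finset.range J, Real.exp (-((j + 1 : ℕ) * (β * h)))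
          * I1 (2 * (j + 1 : ℕ) * β * ((n : ℝ) / 2) ^ 2 / m') ^ 3)) := by
      apply Tendsto.const_mul
      apply tendsto_finsetSum
      intro j _
      apply Tendsto.const_mul
      apply Tendsto.pow
      apply AL_tendsto
      positivity
    refine le_of_tendsto h2 ?_
    filter_upwards [eventually_mag n β h m' hβ hh hm] with N hN
    exact finite_bound' n N hn β h hβ hh m' hm' hN.le J
  have h3 : Tendsto (fun h : ℝ => m' * ∑ j ∈ Finset.range J,
        Real.exp (-((j + 1 : ℕ) * (β * h)))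
        * I1 (2 * (j + 1 : ℕ) * β * ((n : ℝ) / 2) ^ 2 / m') ^ 3) (𝓝[>] 0)
      (𝓝 (m' * ∑ j ∈ Finset.range J, Real.exp (-((j + 1 : ℕ) * (β * 0)))
        * I1 (2 * (j + 1 : ℕ) * β * ((n : ℝ) / 2) ^ 2 / m') ^ 3)) := by
    have hcont : Continuous (fun h : ℝ => m' * ∑ j ∈ Finset.range J,
        Real.exp (-((j + 1 : ℕ) * (β * h)))
        * I1 (2 * (j + 1 : ℕ) * β * ((n : ℝ) / 2) ^ 2 / m') ^ 3) := by
      fun_prop
    exact (hcont.tendsto 0).mono_left nhdsWithin_le_nhds
  simp only [mul_zero, neg_zero, Real.exp_zero, one_mul] at h3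
  refine le_of_tendsto h3 ?_
  filter_upwards [self_mem_nhdsWithin] with h hh
  exact h1 h hh

end Vale.Agent.P361
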