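import Mathlib
import Vale.Agent.P361.Bound

/-!
The bound at fixed temperature in terms of the integral over the Brillouin zone.
-/

namespace Vale.Agent.P361

open Filter Topology MeasureTheory

theorem exp_neg_lip_aux (a b : ℝ) (ha : 0 ≤ a) (hab : a ≤ b) :
    |Real.exp (-a) - Real.exp (-b)| ≤ |a - b| := by
  have h1 : Real.exp (-b) ≤ Real.exp (-a) := Real.exp_le_exp.2 (by linarith)
  rw [abs_of_nonneg (by linarith), abs_sub_comm, abs_of_nonneg (by linarith)]
  have h2 : Real.exp (-b) = Real.exp (-a) * Real.exp (-(b - a)) := by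
    rw [← Real.exp_add]; ring_nf
  have h3 := Real.add_one_le_exp (-(b - a))
  have h4 : Real.exp (-a) ≤ 1 := by rw [Real.exp_le_one_iff]; linarith
  have h5 := Real.exp_pos (-a)
  rw [h2]
  nlinarith

theorem exp_neg_lip (a b : ℝ) (ha : 0 ≤ a) (hb : 0 ≤ b) :
    |Real.exp (-a) - Real.exp (-b)| ≤ |a - b| := by
  rcases le_total a b with hab | hab
  · exact exp_neg_lip_aux a b ha hab
  · rw [abs_sub_comm, abs_sub_comm a b]
    exact exp_neg_lip_aux b a hb hab

theorem I1_lip (s t : ℝ) (hs : 0 ≤ s) (ht : 0 ≤ t) : |I1 s - I1 t| ≤ 2 * |s - t| := by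
  unfold I1
  have hpi := Real.pi_pos
  rw [← mul_sub, ← intervalIntegral.integral_sub ((g_cont s).intervalIntegrable _ _)
    ((g_cont t).intervalIntegrable _ _), abs_mul, abs_of_pos (by positivity)]
  have h1 := intervalIntegral.norm_integral_le_of_norm_le_const (a := (0 : ℝ))
      (b := 2 * Real.pi) (f := fun θ => Real.exp (-(s * (1 - Real.cos θ)))
        - Real.exp (-(t * (1 - Real.cos θ)))) (C := 2 * |s - t|) (by
        intro x _
        have hc1 := Real.cos_le_one x
        have hc2 := Real.neg_one_le_cos x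
        rw [Real.norm_eq_abs]
        refine le_trans (exp_neg_lip _ _ (mul_nonneg hs (by linarith)) (mul_nonneg ht (by linarith))) ?_
        rw [← sub_mul, abs_mul, mul_comm]
        apply mul_le_mul_of_nonneg_right _ (abs_nonneg _)
        rw [abs_of_nonneg (by linarith)]
        linarith)
  rw [Real.norm_eq_abs, sub_zero, abs_of_pos (by positivity : 0 < 2 * Real.pi)] at h1
  calc 1 / (2 * Real.pi) * _ ≤ 1 / (2 * Real.pi) * (2 * |s - t| * (2 * Real.pi)) :=
        mul_le_mul_of_nonneg_left h1 (by positivity)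
    _ = _ := by field_simp

theorem infinite_bound_closed (n : ℕ) (hn : 0 < n) (β : ℝ) (hβ : 0 < β)
    (hm : 0 < spontaneousMagnetization n β) (J : ℕ) :
    spontaneousMagnetization n β * ∑ j ∈ Finset.range J,
      I1 (2 * (j + 1 : ℕ) * β * ((n : ℝ) / 2) ^ 2 / spontaneousMagnetization n β) ^ 3
      ≤ (n : ℝ) / 2 * ((n : ℝ) / 2 - spontaneousMagnetization n β) := by
  set M := spontaneousMagnetization n β with hM
  have hcont : ∀ j : ℕ, Tendsto (fun m' : ℝ => I1 (2 * (j + 1 : ℕ) * β * ((n : ℝ) / 2) ^ 2 / m'))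
      (𝓝[<] M) (𝓝 (I1 (2 * (j + 1 : ℕ) * β * ((n : ℝ) / 2) ^ 2 / M))) := by
    intro j
    set a : ℝ := 2 * (j + 1 : ℕ) * β * ((n : ℝ) / 2) ^ 2 with ha
    have ha0 : 0 ≤ a := by rw [ha]; positivity
    rw [tendsto_iff_dist_tendsto_zero]
    have h1 : Tendsto (fun m' : ℝ => 2 * |a / m' - a / M|) (𝓝[<] M) (𝓝 0) := by
      have h2 : Tendsto (fun m' : ℝ => a / m') (𝓝[<] M) (𝓝 (a / M)) :=
        ((tendsto_const_nhds (x := a)).div (tendsto_id (α := ℝ) (x := 𝓝 M)) hm.ne').mono_left
          nhdsWithin_le_nhds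
      have h3 := (h2.sub_const (a / M)).abs.const_mul 2
      simpa using h3
    have hpos : ∀ᶠ m' : ℝ in 𝓝[<] M, 0 < m' :=
      (eventually_gt_nhds hm).filter_mono nhdsWithin_le_nhds
    refine squeeze_zero' (Eventually.of_forall fun _ => dist_nonneg) ?_ h1
    filter_upwards [hpos] with m' hm'
    rw [Real.dist_eq]
    exact I1_lip _ _ (by positivity) (by positivity)
  have h1 : Tendsto (fun m' : ℝ => m' * ∑ j ∈ Finset.range J,
      I1 (2 * (j + 1 : ℕ) * β * ((n : ℝ) / 2) ^ 2 / m') ^ 3) (𝓝[<] M)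
      (𝓝 (M * ∑ j ∈ Finset.range J, I1 (2 * (j + 1 : ℕ) * β * ((n : ℝ) / 2) ^ 2 / M) ^ 3)) := by
    apply Tendsto.mul
    · exact tendsto_id.mono_left nhdsWithin_le_nhds
    · apply tendsto_finsetSum
      intro j _
      exact (hcont j).pow 3
  have h2 : Tendsto (fun m' : ℝ => (n : ℝ) / 2 * ((n : ℝ) / 2 - m')) (𝓝[<] M)
      (𝓝 ((n : ℝ) / 2 * ((n : ℝ) / 2 - M))) := by
    have : Continuous (fun m' : ℝ => (n : ℝ) / 2 * ((n : ℝ) / 2 - m')) := by fun_prop
    exact (this.tendsto M).mono_left nhdsWithin_le_nhds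
  have hpos : ∀ᶠ m' : ℝ in 𝓝[<] M, 0 < m' :=
    (eventually_gt_nhds hm).filter_mono nhdsWithin_le_nhds
  refine le_of_tendsto_of_tendsto h1 h2 ?_
  filter_upwards [hpos, self_mem_nhdsWithin] with m' hm' hlt
  exact infinite_bound n hn β hβ m' hm' hlt J

/-- The Brillouin zone. -/
def BZ : Set (Fin 3 → ℝ) := Set.Icc (fun _ => -Real.pi) (fun _ => Real.pi)

theorem BZ_pi : BZ = Set.univ.pi (fun _ : Fin 3 => Set.Icc (-Real.pi) Real.pi) := by
  unfold BZ
  rw [← Set.pi_univ_Icc]

theorem I1_symm (t : ℝ) : I1 t = (1 / (2 * Real.pi)) *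
    ∫ θ in Set.Icc (-Real.pi) Real.pi, Real.exp (-(t * (1 - Real.cos θ))) := by
  have hpi := Real.pi_pos
  unfold I1
  have h1 : ∫ θ in (0 : ℝ)..(2 * Real.pi), Real.exp (-(t * (1 - Real.cos θ)))
      = ∫ θ in (-Real.pi)..Real.pi, Real.exp (-(t * (1 - Real.cos θ))) := by
    have hper : Function.Periodic (fun θ : ℝ => Real.exp (-(t * (1 - Real.cos θ))))
        (2 * Real.pi) := by
      intro θ
      simp [Real.cos_add_two_pi]
    have := hper.intervalIntegral_add_eq 0 (-Real.pi)
    rw [zero_add] at this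
    rw [this]
    congr 1
    ring
  rw [h1, intervalIntegral.integral_of_le (by linarith), integral_Icc_eq_integral_Ioc]

theorem integral_BZ_prod (t : ℝ) :
    ∫ k in BZ, Real.exp (-(t * ∑ i, (1 - Real.cos (k i)))) = (2 * Real.pi) ^ 3 * I1 t ^ 3 := by
  have hpi := Real.pi_pos
  rw [BZ_pi, volume_pi, Measure.restrict_pi_pi]
  have h1 : ∀ k : Fin 3 → ℝ, Real.exp (-(t * ∑ i, (1 - Real.cos (k i))))
      = ∏ i, (fun θ : ℝ => Real.exp (-(t * (1 - Real.cos θ)))) (k i) := by
    intro k
    rw [← Real.exp_sum, Finset.sum_neg_distrib, ← Finset.mul_sum]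
  simp only [h1]
  rw [integral_fintype_prod_eq_prod (fun (_ : Fin 3) (θ : ℝ) => Real.exp (-(t * (1 - Real.cos θ))))]
  rw [Finset.prod_const, Finset.card_univ, Fintype.card_fin, I1_symm]
  field_simp

theorem integral_bound (n : ℕ) (hn : 0 < n) (β : ℝ) (hβ : 0 < β)
    (hm : 0 < spontaneousMagnetization n β) :
    IntegrableOn (fun k : Fin 3 → ℝ => 1 / (Real.exp (β * (((n : ℝ) / 2)
      / spontaneousMagnetization n β) * (2 * ((n : ℝ) / 2) * ∑ i, (1 - Real.cos (k i)))) - 1)) BZ ∧
    spontaneousMagnetization n β / ((n : ℝ) / 2) * ((1 / (2 * Real.pi) ^ 3) *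
      ∫ k in BZ, 1 / (Real.exp (β * (((n : ℝ) / 2) / spontaneousMagnetization n β)
        * (2 * ((n : ℝ) / 2) * ∑ i, (1 - Real.cos (k i)))) - 1))
      ≤ (n : ℝ) / 2 - spontaneousMagnetization n β := by
  set M := spontaneousMagnetization n β with hM
  set S : ℝ := (n : ℝ) / 2 with hS
  have hS0 : 0 < S := by rw [hS]; positivity
  have hpi := Real.pi_pos
  set x : (Fin 3 → ℝ) → ℝ := fun k => β * (S / M) * (2 * S * ∑ i, (1 - Real.cos (k i))) with hx
  have hxcont : Continuous x := by
    rw [hx]; fun_prop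
  have hx0 : ∀ k, 0 ≤ x k := by
    intro k
    rw [hx]
    simp only
    have : 0 ≤ ∑ i, (1 - Real.cos (k i)) := by
      apply Finset.sum_nonneg
      intro i _
      have := Real.cos_le_one (k i)
      linarith
    positivity
  set F : ℕ → (Fin 3 → ℝ) → ℝ := fun J k => ∑ j ∈ Finset.range J, Real.exp (-((j + 1 : ℕ) * x k))
    with hF
  have hFcont : ∀ J, Continuous (F J) := by
    intro J
    rw [hF]
    fun_prop
  have hF0 : ∀ J k, 0 ≤ F J k := fun J k => Finset.sum_nonneg (fun j _ => (Real.exp_pos _).le)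
  have hBZc : IsCompact BZ := by unfold BZ; exact isCompact_Icc
  have hFint : ∀ J, IntegrableOn (F J) BZ := fun J =>
    (hFcont J).continuousOn.integrableOn_compact hBZc
  have hFval : ∀ J, ∫ k in BZ, F J k = (2 * Real.pi) ^ 3 * ∑ j ∈ Finset.range J,
      I1 (2 * (j + 1 : ℕ) * β * S ^ 2 / M) ^ 3 := by
    intro J
    rw [hF]
    simp only
    rw [integral_finsetSum, Finset.mul_sum]
    · apply Finset.sum_congr rfl
      intro j _
      rw [← integral_BZ_prod]
      congr 1
      ext k
      congr 2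
      rw [hx]
      simp only
      field_simp
    · intro j _
      exact (Continuous.continuousOn (by fun_prop)).integrableOn_compact hBZc
  have hbound : ∀ J, ∫ k in BZ, F J k ≤ (2 * Real.pi) ^ 3 * (S * (S - M) / M) := by
    intro J
    rw [hFval]
    apply mul_le_mul_of_nonneg_left _ (by positivity)
    rw [le_div_iff₀ hm, mul_comm]
    exact infinite_bound_closed n hn β hβ hm J
  -- monotone convergence
  have hlim : ∀ᵐ k ∂(volume.restrict BZ), Tendsto (fun J => F J k) atTop
      (𝓝 (1 / (Real.exp (x k) - 1))) := by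
    have hne : ∀ᵐ k ∂(volume.restrict BZ), 0 < x k := by
      have h1 : ∀ᵐ k : Fin 3 → ℝ ∂(volume.restrict BZ), k ∈ BZ :=
        ae_restrict_mem (by unfold BZ; exact measurableSet_Icc)
      have h2 : ∀ᵐ k : Fin 3 → ℝ ∂(volume.restrict BZ), k ≠ 0 := by
        apply ae_restrict_of_ae
        exact Measure.ae_ne _ _
      filter_upwards [h1, h2] with k hk1 hk2
      rw [hx]
      simp only
      have h3 : 0 < ∑ i, (1 - Real.cos (k i)) := by
        have h4 : ∃ i, k i ≠ 0 := by
          by_contra hcon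
          push Not at hcon
          exact hk2 (funext hcon)
        obtain ⟨i, hi⟩ := h4
        apply Finset.sum_pos'
        · intro i _
          have := Real.cos_le_one (k i)
          linarith
        · refine ⟨i, Finset.mem_univ i, ?_⟩
          have h5 : Real.cos (k i) < 1 := by
            rcases lt_or_eq_of_le (Real.cos_le_one (k i)) with h | h
            · exact h
            · exfalso
              rw [Real.cos_eq_one_iff] at h
              obtain ⟨m, hm⟩ := h
              have hk3 := hk1.1 i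
              have hk4 := hk1.2 i
              simp only at hk3 hk4
              have hm0 : m ≠ 0 := by
                rintro rfl
                simp at hm
                exact hi hm.symm
              rcases lt_or_gt_of_ne hm0 with h | h
              · have : (m : ℝ) ≤ -1 := by exact_mod_cast (by omega : m ≤ -1)
                nlinarith
              · have : (1 : ℝ) ≤ (m : ℝ) := by exact_mod_cast (by omega : 1 ≤ m)
                nlinarith
          linarith
      positivity
    filter_upwards [hne] with k hk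
    have hr0 : 0 ≤ Real.exp (-x k) := (Real.exp_pos _).le
    have hr1 : Real.exp (-x k) < 1 := by rw [Real.exp_lt_one_iff]; linarith
    have h1 : ∀ J, F J k = Real.exp (-x k) * ∑ j ∈ Finset.range J, Real.exp (-x k) ^ j := by
      intro J
      rw [hF]
      simp only
      rw [Finset.mul_sum]
      apply Finset.sum_congr rfl
      intro j _
      rw [← Real.exp_nat_mul, ← Real.exp_add]
      congr 1
      push_cast
      ring
    simp only [h1]
    have h2 := (hasSum_geometric_of_lt_one hr0 hr1).tendsto_sum_nat.const_mul (Real.exp (-x k))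
    have h3 : Real.exp (-x k) * (1 - Real.exp (-x k))⁻¹ = 1 / (Real.exp (x k) - 1) := by
      have hee : Real.exp (x k) * Real.exp (-x k) = 1 := by rw [← Real.exp_add]; simp
      have h4 : 1 - Real.exp (-x k) ≠ 0 := by linarith
      have h6 : 1 < Real.exp (x k) := by rw [Real.one_lt_exp_iff]; exact hk
      have h5 : Real.exp (x k) - 1 ≠ 0 := by linarith
      field_simp
      linear_combination hee
    rw [h3] at h2
    exact h2
  have hG0 : ∀ k, 0 ≤ 1 / (Real.exp (x k) - 1) := by
    intro k
    apply div_nonneg zero_le_one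
    have := Real.one_le_exp (hx0 k)
    linarith
  have hGmeas : AEStronglyMeasurable (fun k => 1 / (Real.exp (x k) - 1)) (volume.restrict BZ) := by
    apply Measurable.aestronglyMeasurable
    exact measurable_const.div ((Real.measurable_exp.comp hxcont.measurable).sub measurable_const)
  have hlint : Tendsto (fun J => ∫⁻ k in BZ, ENNReal.ofReal (F J k)) atTop
      (𝓝 (∫⁻ k in BZ, ENNReal.ofReal (1 / (Real.exp (x k) - 1)))) := by
    apply lintegral_tendsto_of_tendsto_of_monotone
    · intro J
      exact (hFcont J).measurable.ennreal_ofReal.aemeasurable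
    · refine Eventually.of_forall (fun k => ?_)
      intro J J' hJJ'
      apply ENNReal.ofReal_le_ofReal
      rw [hF]
      simp only
      apply Finset.sum_le_sum_of_subset_of_nonneg (Finset.range_subset_range.2 hJJ')
      intro i _ _
      exact (Real.exp_pos _).le
    · filter_upwards [hlim] with k hk
      exact (ENNReal.continuous_ofReal.tendsto _).comp hk
  have hle : ∫⁻ k in BZ, ENNReal.ofReal (1 / (Real.exp (x k) - 1))
      ≤ ENNReal.ofReal ((2 * Real.pi) ^ 3 * (S * (S - M) / M)) := by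
    refine le_of_tendsto' hlint (fun J => ?_)
    rw [← ofReal_integral_eq_lintegral_ofReal (hFint J) (Eventually.of_forall (hF0 J))]
    exact ENNReal.ofReal_le_ofReal (hbound J)
  have hint : IntegrableOn (fun k => 1 / (Real.exp (x k) - 1)) BZ := by
    refine ⟨hGmeas, ?_⟩
    rw [hasFiniteIntegral_iff_ofReal (Eventually.of_forall hG0)]
    exact lt_of_le_of_lt hle ENNReal.ofReal_lt_top
  refine ⟨hint, ?_⟩
  have hB0 : 0 ≤ (2 * Real.pi) ^ 3 * (S * (S - M) / M) :=
    le_trans (setIntegral_nonneg (by unfold BZ; exact measurableSet_Icc) (fun k _ => hF0 0 k))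
      (hbound 0)
  have hfin : ∫ k in BZ, 1 / (Real.exp (x k) - 1) ≤ (2 * Real.pi) ^ 3 * (S * (S - M) / M) := by
    rw [integral_eq_lintegral_of_nonneg_ae (Eventually.of_forall hG0) hGmeas]
    apply ENNReal.toReal_le_of_le_ofReal hB0 hle
  calc M / S * ((1 / (2 * Real.pi) ^ 3) * ∫ k in BZ, 1 / (Real.exp (x k) - 1))
      ≤ M / S * ((1 / (2 * Real.pi) ^ 3) * ((2 * Real.pi) ^ 3 * (S * (S - M) / M))) := by
        apply mul_le_mul_of_nonneg_left _ (by positivity)
        apply mul_le_mul_of_nonneg_left hfin (by positivity)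
    _ = S - M := by field_simp

end Vale.Agent.P361
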