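import Mathlib
import Vale.Agent.P361.Spin

/-!
The explicit spin matrices satisfy the defining relations.
-/

namespace Vale.Agent.P361

open Matrix

theorem Sp_conj_conj (n : ℕ) : ((Sp n)ᴴ)ᴴ = Sp n := conjTranspose_conjTranspose _

theorem S1_herm (n : ℕ) : (S1 n).IsHermitian := by
  unfold IsHermitian S1
  rw [conjTranspose_smul, conjTranspose_add, Sp_conj_conj]
  have h : star (1 / 2 : ℂ) = 1 / 2 := by simp
  rw [h, add_comm ((Sp n)ᴴ)]

theorem S2_herm (n : ℕ) : (S2 n).IsHermitian := by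
  unfold IsHermitian S2
  rw [conjTranspose_smul, conjTranspose_sub, Sp_conj_conj]
  have h : star (-Complex.I / 2 : ℂ) = Complex.I / 2 := by simp
  rw [h]
  module

theorem S3_herm (n : ℕ) : (S3 n).IsHermitian := S3_conjTranspose n

theorem comm12 (n : ℕ) : S1 n * S2 n - S2 n * S1 n = Complex.I • S3 n := by
  have h := comm_Sp_Sm n
  unfold Sm at h
  have h3 : (2 : ℂ) • (S1 n * S2 n - S2 n * S1 n)
      = Complex.I • (Sp n * (Sp n)ᴴ - (Sp n)ᴴ * Sp n) := by
    unfold S1 S2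
    simp only [smul_mul_smul_comm, add_mul, mul_add, sub_mul, mul_sub]
    module
  rw [h] at h3
  have h4 : (2 : ℂ) • (S1 n * S2 n - S2 n * S1 n) = (2 : ℂ) • (Complex.I • S3 n) := by
    rw [h3]; module
  exact smul_right_injective _ (two_ne_zero) h4

theorem comm23 (n : ℕ) : S2 n * S3 n - S3 n * S2 n = Complex.I • S1 n := by
  have h1 := S3_mul_Sp n
  have h2 := comm_S3_Sm n
  unfold Sm at h2
  have e : S2 n * S3 n - S3 n * S2 n = (-Complex.I / 2) •
      ((S3 n * (Sp n)ᴴ - (Sp n)ᴴ * S3 n) - (S3 n * Sp n - Sp n * S3 n)) := by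
    unfold S2
    simp only [smul_mul_assoc, mul_smul_comm, sub_mul, mul_sub]
    module
  rw [e, h1, h2]
  unfold S1
  module

theorem comm31 (n : ℕ) : S3 n * S1 n - S1 n * S3 n = Complex.I • S2 n := by
  have h1 := S3_mul_Sp n
  have h2 := comm_S3_Sm n
  unfold Sm at h2
  have e : S3 n * S1 n - S1 n * S3 n = (1 / 2 : ℂ) •
      ((S3 n * (Sp n)ᴴ - (Sp n)ᴴ * S3 n) + (S3 n * Sp n - Sp n * S3 n)) := by
    unfold S1
    simp only [smul_mul_assoc, mul_smul_comm, add_mul, mul_add]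
    module
  rw [e, h1, h2]
  unfold S2
  rw [smul_smul]
  have hI : Complex.I * (-Complex.I / 2) = 1 / 2 := by
    have := Complex.I_mul_I
    linear_combination (-1 / 2 : ℂ) * this
  rw [hI]
  module

theorem casimir (n : ℕ) : S1 n * S1 n + S2 n * S2 n + S3 n * S3 n
    = ((n : ℂ) / 2 * ((n : ℂ) / 2 + 1)) • (1 : Matrix (Fin (n + 1)) (Fin (n + 1)) ℂ) := by
  have h := anticomm_Sp_Sm n
  unfold Sm at h
  have hI : (-Complex.I / 2) * (-Complex.I / 2) = -(1 / 4 : ℂ) := by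
    have := Complex.I_mul_I
    linear_combination (1 / 4 : ℂ) * this
  have e : S1 n * S1 n + S2 n * S2 n = (1 / 2 : ℂ) • (Sp n * (Sp n)ᴴ + (Sp n)ᴴ * Sp n) := by
    unfold S1 S2
    simp only [smul_mul_smul_comm, add_mul, mul_add, sub_mul, mul_sub]
    rw [hI]
    module
  rw [e, h]
  module

end Vale.Agent.P361
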